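import Mathlib.Probability.Kernel.Representation
import Mathlib.Probability.CDF
import Mathlib.Tactic

/-!
# Maps between atomless measures

For a finite measure `ν₁` without atoms on a standard Borel space and any finite measure `ν₂` of
the same mass on a standard Borel space there is a Borel map pushing `ν₁` to `ν₂`.
-/

set_option autoImplicit false

open MeasureTheory ProbabilityTheory Set Filter Topology
open scoped ENNReal unitInterval

namespace Crest.Agent.R130

/-- The cdf of a probability measure on `ℝ` without atoms is continuous. -/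
theorem continuous_cdf (ν : Measure ℝ) [IsProbabilityMeasure ν] [NullSingletonClass ν] :
    Continuous (cdf ν) := by
  rw [continuous_iff_continuousAt]
  intro x
  rw [(monotone_cdf ν).continuousAt_iff_leftLim_eq_rightLim]
  have h1 : ν {x} = 0 := measure_singleton x
  rw [← measure_cdf ν, StieltjesFunction.measure_singleton] at h1
  have h2 : Function.leftLim (cdf ν) x ≤ cdf ν x := (monotone_cdf ν).leftLim_le le_rfl
  have h3 : cdf ν x - Function.leftLim (cdf ν) x ≤ 0 := by
    simpa using h1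
  rw [StieltjesFunction.rightLim_eq]
  linarith

theorem exists_cdf_eq (ν : Measure ℝ) [IsProbabilityMeasure ν] [NullSingletonClass ν] {t : ℝ}
    (h0 : 0 < t) (h1 : t < 1) : ∃ a, cdf ν a = t := by
  have hc := continuous_cdf ν
  obtain ⟨a, ha⟩ := ((tendsto_cdf_atBot ν).eventually (gt_mem_nhds h0)).exists
  obtain ⟨b, hb⟩ := ((tendsto_cdf_atTop ν).eventually (lt_mem_nhds h1)).exists
  exact mem_range_of_exists_le_of_exists_ge hc ⟨a, ha.le⟩ ⟨b, hb.le⟩

/-- The measurable map `ℝ → I` given by the cdf. -/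
noncomputable def cdfI (ν : Measure ℝ) (x : ℝ) : I := ⟨cdf ν x, cdf_nonneg ν x, cdf_le_one ν x⟩

theorem measurable_cdfI (ν : Measure ℝ) : Measurable (cdfI ν) :=
  (monotone_cdf ν).measurable.subtype_mk

theorem map_cdfI (ν : Measure ℝ) [IsProbabilityMeasure ν] [NullSingletonClass ν] :
    ν.map (cdfI ν) = volume := by
  have hm := measurable_cdfI ν
  have : IsProbabilityMeasure (ν.map (cdfI ν)) := Measure.isProbabilityMeasure_map hm.aemeasurable
  -- bounds for `t ∈ (0,1)`
  have key1 : ∀ t : ℝ, 0 < t → t < 1 → ENNReal.ofReal t ≤ ν {x | cdf ν x ≤ t} := by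
    intro t h0 h1
    obtain ⟨a, ha⟩ := exists_cdf_eq ν h0 h1
    rw [← ha, ofReal_cdf]
    refine measure_mono fun x hx => ?_
    exact monotone_cdf ν hx
  have key2 : ∀ t : ℝ, 0 < t → t < 1 → ν {x | cdf ν x < t} ≤ ENNReal.ofReal t := by
    intro t h0 h1
    obtain ⟨a, ha⟩ := exists_cdf_eq ν h0 h1
    rw [← ha, ofReal_cdf]
    refine measure_mono fun x hx => ?_
    by_contra hcon
    rw [mem_Iic, not_le] at hcon
    have := monotone_cdf ν hcon.le
    have hx' : cdf ν x < cdf ν a := hx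
    exact absurd hx' (not_lt.2 this)
  refine Measure.ext_of_Iic _ _ fun t => ?_
  rw [Measure.map_apply hm measurableSet_Iic, unitInterval.volume_Iic]
  have hpre : cdfI ν ⁻¹' Iic t = {x | cdf ν x ≤ t} := by
    ext x; rfl
  rw [hpre]
  have ht0 : (0 : ℝ) ≤ t := t.2.1
  have ht1 : (t : ℝ) ≤ 1 := t.2.2
  rcases ht1.eq_or_lt with h | h
  · rw [h]
    have : {x | cdf ν x ≤ 1} = univ := by
      ext x; simp [cdf_le_one ν x]
    rw [this]; simp
  apply le_antisymm
  · -- upper bound
    refine ENNReal.le_of_forall_pos_le_add fun ε hε _ => ?_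
    set t' : ℝ := min ((t : ℝ) + ε) (((t : ℝ) + 1) / 2) with ht'
    have hεr : (0 : ℝ) < ε := by exact_mod_cast hε
    have h1' : (t : ℝ) < t' := by
      rw [ht', lt_min_iff]; constructor <;> linarith
    have h2' : t' < 1 := lt_of_le_of_lt (min_le_right _ _) (by linarith)
    calc ν {x | cdf ν x ≤ t} ≤ ν {x | cdf ν x < t'} :=
          measure_mono fun x hx => lt_of_le_of_lt hx h1'
      _ ≤ ENNReal.ofReal t' := key2 t' (ht0.trans_lt h1') h2'
      _ ≤ ENNReal.ofReal ((t : ℝ) + ε) := ENNReal.ofReal_le_ofReal (min_le_left _ _)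
      _ = ENNReal.ofReal t + ε := by
          rw [ENNReal.ofReal_add ht0 hεr.le, ENNReal.ofReal_coe_nnreal]
  · rcases ht0.eq_or_lt with h' | h'
    · rw [← h']; simp
    · exact key1 t h' h

variable {X Y : Type*} [MeasurableSpace X] [StandardBorelSpace X] [MeasurableSpace Y]
  [StandardBorelSpace Y]

theorem exists_map_eq_volume (ν : Measure X) [IsProbabilityMeasure ν] [NullSingletonClass ν] :
    ∃ u : X → I, Measurable u ∧ ν.map u = volume := by
  have he := measurableEmbedding_embeddingReal X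
  set ν' := ν.map (embeddingReal X) with hν'
  have : IsProbabilityMeasure ν' := Measure.isProbabilityMeasure_map he.measurable.aemeasurable
  have : NullSingletonClass ν' := by
    constructor
    intro x
    rw [hν', Measure.map_apply he.measurable (measurableSet_singleton x)]
    apply Set.Subsingleton.measure_zero
    intro a ha b hb
    simp only [mem_preimage, mem_singleton_iff] at ha hb
    exact he.injective (ha.trans hb.symm)
  refine ⟨cdfI ν' ∘ embeddingReal X, (measurable_cdfI ν').comp he.measurable, ?_⟩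
  rw [← Measure.map_map (measurable_cdfI ν') he.measurable, ← hν', map_cdfI]

/-- A finite atomless measure can be pushed to any finite measure of the same mass. -/
theorem exists_map_eq [Nonempty Y] (ν₁ : Measure X) [IsFiniteMeasure ν₁] [NullSingletonClass ν₁]
    (ν₂ : Measure Y) (h : ν₁ univ = ν₂ univ) :
    ∃ T : X → Y, Measurable T ∧ ν₁.map T = ν₂ := by
  rcases eq_or_ne (ν₁ univ) 0 with h0 | h0
  · refine ⟨fun _ => Classical.arbitrary Y, measurable_const, ?_⟩
    have e1 : ν₁ = 0 := Measure.measure_univ_eq_zero.1 h0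
    have e2 : ν₂ = 0 := Measure.measure_univ_eq_zero.1 (h ▸ h0)
    rw [e1, e2, Measure.map_zero]
  have htop : ν₁ univ ≠ ⊤ := measure_ne_top _ _
  have hinv : (ν₁ univ)⁻¹ ≠ ⊤ := ENNReal.inv_ne_top.2 h0
  have hp1 : IsProbabilityMeasure ((ν₁ univ)⁻¹ • ν₁) :=
    ⟨by rw [Measure.smul_apply, smul_eq_mul, ENNReal.inv_mul_cancel h0 htop]⟩
  have hp2 : IsProbabilityMeasure ((ν₁ univ)⁻¹ • ν₂) :=
    ⟨by rw [Measure.smul_apply, smul_eq_mul, ← h, ENNReal.inv_mul_cancel h0 htop]⟩
  have hna : NullSingletonClass ((ν₁ univ)⁻¹ • ν₁) := by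
    constructor
    intro x
    rw [Measure.smul_apply, measure_singleton, smul_zero]
  obtain ⟨u, hu, hu'⟩ := exists_map_eq_volume ((ν₁ univ)⁻¹ • ν₁)
  obtain ⟨f, hf, hf'⟩ := Measure.exists_measurable_map_eq ((ν₁ univ)⁻¹ • ν₂)
  refine ⟨f ∘ u, hf.comp hu, ?_⟩
  have h1 : ((ν₁ univ)⁻¹ • ν₁).map (f ∘ u) = (ν₁ univ)⁻¹ • ν₂ := by
    rw [← Measure.map_map hf hu, hu', hf']
  rw [Measure.map_smul] at h1
  have h2 : ν₁ univ • ((ν₁ univ)⁻¹ • ν₁.map (f ∘ u)) = ν₁ univ • ((ν₁ univ)⁻¹ • ν₂) := by rw [h1]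
  rwa [smul_smul, smul_smul, ENNReal.mul_inv_cancel h0 htop, one_smul, one_smul] at h2

/-- Cellwise version: the map can be chosen to respect a given measurable labelling by `ℕ`. -/
theorem exists_map_eq_cell [Nonempty Y] (ν₁ : Measure X) [IsFiniteMeasure ν₁]
    [NullSingletonClass ν₁] (ν₂ : Measure Y) (i₁ : X → ℕ) (i₂ : Y → ℕ) (h₁ : Measurable i₁)
    (h₂ : Measurable i₂) (h : ∀ n, ν₁ (i₁ ⁻¹' {n}) = ν₂ (i₂ ⁻¹' {n})) :
    ∃ T : X → Y, Measurable T ∧ ν₁.map T = ν₂ ∧ ∀ᵐ x ∂ν₁, i₂ (T x) = i₁ x := by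
  have hP₁ : ∀ n, MeasurableSet (i₁ ⁻¹' {n}) := fun n => h₁ (measurableSet_singleton n)
  have hP₂ : ∀ n, MeasurableSet (i₂ ⁻¹' {n}) := fun n => h₂ (measurableSet_singleton n)
  have hex : ∀ n, ∃ T : X → Y, Measurable T ∧
      (ν₁.restrict (i₁ ⁻¹' {n})).map T = ν₂.restrict (i₂ ⁻¹' {n}) := fun n =>
    exists_map_eq _ _ (by simp [h n])
  choose T hT hT' using hex
  have hTm : Measurable fun x => T (i₁ x) x := by
    have : Measurable fun p : ℕ × X => T p.1 p.2 :=
      measurable_from_prod_countable_right fun n => hT n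
    exact this.comp (h₁.prodMk measurable_id)
  have hu₁ : ⋃ n, i₁ ⁻¹' {n} = univ := by
    rw [← preimage_iUnion, iUnion_singleton_eq_range, range_id', preimage_univ]
  have hu₂ : ⋃ n, i₂ ⁻¹' {n} = univ := by
    rw [← preimage_iUnion, iUnion_singleton_eq_range, range_id', preimage_univ]
  have hd₁ : Pairwise (Function.onFun Disjoint fun n => i₁ ⁻¹' {n}) := by
    intro a b hab
    exact Disjoint.preimage _ (by simpa using hab)
  have hd₂ : Pairwise (Function.onFun Disjoint fun n => i₂ ⁻¹' {n}) := by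
    intro a b hab
    exact Disjoint.preimage _ (by simpa using hab)
  have hs₁ : Measure.sum (fun n => ν₁.restrict (i₁ ⁻¹' {n})) = ν₁ := by
    rw [← Measure.restrict_iUnion hd₁ hP₁, hu₁, Measure.restrict_univ]
  have hs₂ : Measure.sum (fun n => ν₂.restrict (i₂ ⁻¹' {n})) = ν₂ := by
    rw [← Measure.restrict_iUnion hd₂ hP₂, hu₂, Measure.restrict_univ]
  have hcong : ∀ n, (fun x => T (i₁ x) x) =ᵐ[ν₁.restrict (i₁ ⁻¹' {n})] T n := by
    intro n
    filter_upwards [ae_restrict_mem (hP₁ n)] with x hx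
    have hx' : i₁ x = n := hx
    simp only [hx']
  refine ⟨fun x => T (i₁ x) x, hTm, ?_, ?_⟩
  · conv_lhs => rw [← hs₁]
    rw [Measure.map_sum hTm.aemeasurable]
    conv_rhs => rw [← hs₂]
    congr 1
    funext n
    rw [Measure.map_congr (hcong n), hT' n]
  · rw [← hs₁, Measure.ae_sum_iff]
    intro n
    have h3 : ∀ᵐ y ∂(ν₁.restrict (i₁ ⁻¹' {n})).map (T n), i₂ y = n := by
      rw [hT' n]
      exact ae_restrict_mem (hP₂ n)
    have h4 := ae_of_ae_map (hT n).aemeasurable h3
    filter_upwards [ae_restrict_mem (hP₁ n), h4] with x hx hx'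
    have hx1 : i₁ x = n := hx
    rw [hx1]
    exact hx'

end Crest.Agent.R130
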