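import Crest.Agent.R130.Defs

/-!
# R130 (S0175): abstract measure theory of the five-cluster plan
-/

set_option autoImplicit false

open MeasureTheory Set
open scoped ENNReal
open Crest.AnalysisR.OT

namespace Crest.Agent.R130

variable {E : Type*} [MeasurableSpace E]

/-- The five-cluster measure. -/
noncomputable def mu5 (m : Measure E) (Y W : Fin 2 → E → E) : Measure E :=
  (2 : ℝ≥0∞) • m + ∑ i, m.map (Y i) + ∑ i, m.map (W i)

/-- The plan. -/
noncomputable def plan (m : Measure E) (Y W : Fin 2 → E → E) : Measure (E × E × E) :=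
  ∑ i, (m.map (fun x => (x, Y i x, W i x)) + m.map (fun x => (Y i x, W i x, x)) +
    m.map (fun x => (W i x, x, Y i x)))

section
variable {m : Measure E} {Y W : Fin 2 → E → E} (hY : ∀ i, Measurable (Y i))
  (hW : ∀ i, Measurable (W i))

include hY hW

theorem lintegral_mu5 {f : E → ℝ≥0∞} (hf : Measurable f) :
    ∫⁻ x, f x ∂(mu5 m Y W) = ∑ i, ∫⁻ x, (f x + f (Y i x) + f (W i x)) ∂m := by
  have h1 : ∀ i, ∫⁻ x, (f x + f (Y i x) + f (W i x)) ∂m
      = ∫⁻ x, f x ∂m + ∫⁻ x, f (Y i x) ∂m + ∫⁻ x, f (W i x) ∂m := by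
    intro i
    rw [lintegral_add_left (by have := hY i; fun_prop), lintegral_add_left hf]
  simp only [h1, mu5, Fin.sum_univ_two, lintegral_add_measure, lintegral_smul_measure,
    lintegral_map hf (hY _), lintegral_map hf (hW _), smul_eq_mul, two_mul]
  ring

theorem mu5_apply {s : Set E} (hs : MeasurableSet s) :
    mu5 m Y W s = 2 * m s + ∑ i, m (Y i ⁻¹' s) + ∑ i, m (W i ⁻¹' s) := by
  simp only [mu5, Fin.sum_univ_two, Measure.add_apply, Measure.smul_apply, smul_eq_mul,
    Measure.map_apply (hY _) hs, Measure.map_apply (hW _) hs]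

theorem map_mu5 {F : Type*} [MeasurableSpace F] {T : E → F} (hT : Measurable T) :
    (mu5 m Y W).map T = (2 : ℝ≥0∞) • m.map T + ∑ i, m.map (fun x => T (Y i x)) +
      ∑ i, m.map (fun x => T (W i x)) := by
  simp only [mu5, Fin.sum_univ_two]
  rw [Measure.map_add _ _ hT, Measure.map_add _ _ hT, Measure.map_add _ _ hT,
    Measure.map_add _ _ hT, Measure.map_smul, Measure.map_map hT (hY 0), Measure.map_map hT (hY 1),
    Measure.map_map hT (hW 0), Measure.map_map hT (hW 1)]
  rfl

theorem lintegral_plan {f : E × E × E → ℝ≥0∞} (hf : Measurable f) :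
    ∫⁻ p, f p ∂(plan m Y W) = ∑ i, ∫⁻ x, (f (x, Y i x, W i x) + f (Y i x, W i x, x) +
      f (W i x, x, Y i x)) ∂m := by
  have h1 : ∀ i, ∫⁻ x, (f (x, Y i x, W i x) + f (Y i x, W i x, x) +
      f (W i x, x, Y i x)) ∂m
      = ∫⁻ x, f (x, Y i x, W i x) ∂m + ∫⁻ x, f (Y i x, W i x, x) ∂m +
        ∫⁻ x, f (W i x, x, Y i x) ∂m := by
    intro i
    have := hY i
    have := hW i
    rw [lintegral_add_left (by fun_prop), lintegral_add_left (by fun_prop)]
  have m1 : ∀ i, Measurable fun x => (x, Y i x, W i x) := by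
    intro i; have := hY i; have := hW i; fun_prop
  have m2 : ∀ i, Measurable fun x => (Y i x, W i x, x) := by
    intro i; have := hY i; have := hW i; fun_prop
  have m3 : ∀ i, Measurable fun x => (W i x, x, Y i x) := by
    intro i; have := hY i; have := hW i; fun_prop
  simp only [h1, plan, Fin.sum_univ_two, lintegral_add_measure,
    lintegral_map hf (m1 _), lintegral_map hf (m2 _), lintegral_map hf (m3 _)]

theorem isCoupling_plan : IsCoupling₃ (mu5 m Y W) (plan m Y W) := by
  have m1 : ∀ i, Measurable fun x => (x, Y i x, W i x) := by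
    intro i; have := hY i; have := hW i; fun_prop
  have m2 : ∀ i, Measurable fun x => (Y i x, W i x, x) := by
    intro i; have := hY i; have := hW i; fun_prop
  have m3 : ∀ i, Measurable fun x => (W i x, x, Y i x) := by
    intro i; have := hY i; have := hW i; fun_prop
  have key : ∀ (g : E × E × E → E), Measurable g →
      (plan m Y W).map g = ∑ i, (m.map (fun x => g (x, Y i x, W i x)) +
        m.map (fun x => g (Y i x, W i x, x)) + m.map (fun x => g (W i x, x, Y i x))) := by
    intro g hg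
    simp only [plan, Fin.sum_univ_two]
    rw [Measure.map_add _ _ hg, Measure.map_add _ _ hg, Measure.map_add _ _ hg,
      Measure.map_add _ _ hg, Measure.map_add _ _ hg,
      Measure.map_map hg (m1 0), Measure.map_map hg (m1 1),
      Measure.map_map hg (m2 0), Measure.map_map hg (m2 1),
      Measure.map_map hg (m3 0), Measure.map_map hg (m3 1)]
    rfl
  have hid : m.map (fun x => x) = m := Measure.map_id
  refine ⟨?_, ?_, ?_⟩
  · rw [key _ (by fun_prop)]
    simp only [mu5, Fin.sum_univ_two, hid, two_smul]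
    have e1 : ∀ i, m.map (fun x => Y i x) = m.map (Y i) := fun i => rfl
    have e2 : ∀ i, m.map (fun x => W i x) = m.map (W i) := fun i => rfl
    simp only [e1, e2]
    abel
  · rw [key _ (by fun_prop)]
    simp only [mu5, Fin.sum_univ_two, hid, two_smul]
    have e1 : ∀ i, m.map (fun x => Y i x) = m.map (Y i) := fun i => rfl
    have e2 : ∀ i, m.map (fun x => W i x) = m.map (W i) := fun i => rfl
    simp only [e1, e2]
    abel
  · rw [key _ (by fun_prop)]
    simp only [mu5, Fin.sum_univ_two, hid, two_smul]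
    have e1 : ∀ i, m.map (fun x => Y i x) = m.map (Y i) := fun i => rfl
    have e2 : ∀ i, m.map (fun x => W i x) = m.map (W i) := fun i => rfl
    simp only [e1, e2]
    abel

end

/-- Lower bound for every coupling from dual potentials. -/
theorem lower_bound {μ : Measure E} {cost : E × E × E → ℝ≥0∞} {Φ : E → ℝ≥0∞}
    (hΦ : Measurable Φ) {N : Set E} (hN : ∀ᵐ x ∂μ, x ∈ N)
    (hdual : ∀ x ∈ N, ∀ y ∈ N, ∀ z ∈ N, Φ x + Φ y + Φ z ≤ cost (x, y, z))
    {π : Measure (E × E × E)} (hπ : IsCoupling₃ μ π) :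
    3 * ∫⁻ x, Φ x ∂μ ≤ ∫⁻ p, cost p ∂π := by
  obtain ⟨h1, h2, h3⟩ := hπ
  have a1 : ∀ᵐ p ∂π, p.1 ∈ N := by
    rw [← h1] at hN
    exact ae_of_ae_map (by fun_prop) hN
  have a2 : ∀ᵐ p ∂π, p.2.1 ∈ N := by
    rw [← h2] at hN
    exact ae_of_ae_map (by fun_prop) hN
  have a3 : ∀ᵐ p ∂π, p.2.2 ∈ N := by
    rw [← h3] at hN
    exact ae_of_ae_map (by fun_prop) hN
  have e1 : ∫⁻ p, Φ p.1 ∂π = ∫⁻ x, Φ x ∂μ := by
    rw [← h1, lintegral_map hΦ (by fun_prop)]
  have e2 : ∫⁻ p, Φ p.2.1 ∂π = ∫⁻ x, Φ x ∂μ := by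
    rw [← h2, lintegral_map hΦ (by fun_prop)]
  have e3 : ∫⁻ p, Φ p.2.2 ∂π = ∫⁻ x, Φ x ∂μ := by
    rw [← h3, lintegral_map hΦ (by fun_prop)]
  calc 3 * ∫⁻ x, Φ x ∂μ = ∫⁻ p, (Φ p.1 + Φ p.2.1 + Φ p.2.2) ∂π := by
        rw [lintegral_add_left (by fun_prop), lintegral_add_left (by fun_prop), e1, e2, e3]
        ring
    _ ≤ ∫⁻ p, cost p ∂π := by
        refine lintegral_mono_ae ?_
        filter_upwards [a1, a2, a3] with p hp1 hp2 hp3
        exact hdual _ hp1 _ hp2 _ hp3

end Crest.Agent.R130
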