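import Crest.Agent.R130.Abstract

/-!
# R130 (S0175): Monge plans approach the minimum
-/

set_option autoImplicit false

open MeasureTheory Set
open scoped ENNReal
open Crest.AnalysisR.OT

namespace Crest.Agent.R130

theorem map_ite {E : Type*} [MeasurableSpace E] {F : Type*} [MeasurableSpace F] {m : Measure E} {S : Set E} (hS : MeasurableSet S)
    [DecidablePred (· ∈ S)] {f g : E → F} (hf : Measurable f) (hg : Measurable g) :
    m.map (fun x => if x ∈ S then f x else g x) = (m.restrict S).map f + (m.restrict Sᶜ).map g := by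
  have hh : Measurable (fun x => if x ∈ S then f x else g x) := Measurable.ite hS hf hg
  ext s hs
  rw [Measure.add_apply, Measure.map_apply hh hs, Measure.map_apply hf hs,
    Measure.map_apply hg hs, Measure.restrict_apply (hf hs), Measure.restrict_apply (hg hs),
    ← measure_inter_add_sdiff _ hS]
  congr 1
  · congr 1
    ext x
    simp only [mem_inter_iff, mem_preimage]
    constructor
    · rintro ⟨h1, h2⟩
      rw [if_pos h2] at h1
      exact ⟨h1, h2⟩
    · rintro ⟨h1, h2⟩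
      rw [if_pos h2]
      exact ⟨h1, h2⟩
  · congr 1
    ext x
    simp only [mem_sdiff, mem_inter_iff, mem_preimage, mem_compl_iff]
    constructor
    · rintro ⟨h1, h2⟩
      rw [if_neg h2] at h1
      exact ⟨h1, h2⟩
    · rintro ⟨h1, h2⟩
      rw [if_neg h2]
      exact ⟨h1, h2⟩

variable {E : Type*} [PseudoMetricSpace E] [MeasurableSpace E]

theorem monge_approx {m : Measure E} [IsFiniteMeasure m] (hm1 : 2 * m univ ≤ 1) {U K : Set E}
    (hUm : MeasurableSet U) (hKU : K ⊆ U) (hK : ∀ᵐ x ∂m, x ∈ K)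
    {Y X W Z : Fin 2 → E → E} (hY : ∀ i, Measurable (Y i)) (hX : ∀ i, Measurable (X i))
    (hW : ∀ i, Measurable (W i)) (hZ : ∀ i, Measurable (Z i))
    (hYX : ∀ i, ∀ x ∈ U, X i (Y i x) = x) (hWZ : ∀ i, ∀ x ∈ U, Z i (W i x) = x)
    (hYU : ∀ i, MeasurableSet (Y i '' U)) (hWU : ∀ i, MeasurableSet (W i '' U))
    (d1 : ∀ i, Disjoint U (Y i '' U)) (d2 : ∀ i, Disjoint U (W i '' U))
    (d3 : ∀ i j, Disjoint (Y i '' U) (W j '' U))
    (d4 : Disjoint (Y 0 '' U) (Y 1 '' U)) (d5 : Disjoint (W 0 '' U) (W 1 '' U))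
    {cost : E × E × E → ℝ≥0∞} (hcost : Measurable cost)
    (hcont : ∀ η : ℝ≥0∞, 0 < η → ∃ δ : ℝ, 0 < δ ∧ ∀ i, ∀ x ∈ K, ∀ x' ∈ K, dist x' x ≤ δ →
      cost (x, Y i x', W i x') ≤ cost (x', Y i x', W i x') + η)
    (hdoub : ∀ ε : ℝ, 0 < ε → ∃ D : E → E, Measurable D ∧ ∃ S : Set E, MeasurableSet S ∧
      (m.restrict S).map D = (2⁻¹ : ℝ≥0∞) • m ∧ (m.restrict Sᶜ).map D = (2⁻¹ : ℝ≥0∞) • m ∧
      ∀ᵐ x ∂m, dist (D x) x ≤ ε)
    (hfin : ∫⁻ p, cost p ∂(plan m Y W) ≠ ⊤)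
    (ε : ℝ≥0∞) (hε : 0 < ε) :
    ∃ T₂ T₃ : E → E, Measurable T₂ ∧ Measurable T₃ ∧
      (mu5 m Y W).map T₂ = mu5 m Y W ∧ (mu5 m Y W).map T₃ = mu5 m Y W ∧
      ∫⁻ x, cost (x, T₂ x, T₃ x) ∂(mu5 m Y W) < ∫⁻ p, cost p ∂(plan m Y W) + ε := by
  classical
  obtain ⟨η, hη0, hηε⟩ := exists_between hε
  obtain ⟨δ, hδ0, hδ⟩ := hcont η hη0
  obtain ⟨D, hD, S, hS, hDS, hDS', hDx⟩ := hdoub δ hδ0
  have hU : ∀ᵐ x ∂m, x ∈ U := hK.mono fun x hx => hKU hx
  -- disjointness bookkeeping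
  have ne1 : ∀ i, ∀ x ∈ U, Y i x ∉ U := fun i x hx h =>
    Set.disjoint_left.mp (d1 i) h (mem_image_of_mem _ hx)
  have ne2 : ∀ i, ∀ x ∈ U, W i x ∉ U := fun i x hx h =>
    Set.disjoint_left.mp (d2 i) h (mem_image_of_mem _ hx)
  have ne3 : ∀ i j, ∀ x ∈ U, W i x ∉ Y j '' U := fun i j x hx h =>
    Set.disjoint_left.mp (d3 j i) h (mem_image_of_mem _ hx)
  have ne4 : ∀ x ∈ U, Y 1 x ∉ Y 0 '' U := fun x hx h =>
    Set.disjoint_left.mp d4 h (mem_image_of_mem _ hx)
  have ne5 : ∀ x ∈ U, W 1 x ∉ W 0 '' U := fun x hx h =>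
    Set.disjoint_left.mp d5 h (mem_image_of_mem _ hx)
  let A₂ : E → E := fun x => if x ∈ S then Y 0 (D x) else Y 1 (D x)
  let A₃ : E → E := fun x => if x ∈ S then W 0 (D x) else W 1 (D x)
  have hA₂ : Measurable A₂ := Measurable.ite hS ((hY 0).comp hD) ((hY 1).comp hD)
  have hA₃ : Measurable A₃ := Measurable.ite hS ((hW 0).comp hD) ((hW 1).comp hD)
  let T₂ : E → E := fun x => if x ∈ U then A₂ x else if x ∈ Y 0 '' U then W 0 (X 0 x) else
    if x ∈ Y 1 '' U then W 1 (X 1 x) else if x ∈ W 0 '' U then Z 0 x else Z 1 x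
  let T₃ : E → E := fun x => if x ∈ U then A₃ x else if x ∈ Y 0 '' U then X 0 x else
    if x ∈ Y 1 '' U then X 1 x else if x ∈ W 0 '' U then Y 0 (Z 0 x) else Y 1 (Z 1 x)
  have hT₂ : Measurable T₂ := by
    refine Measurable.ite hUm hA₂ (Measurable.ite (hYU 0) ((hW 0).comp (hX 0))
      (Measurable.ite (hYU 1) ((hW 1).comp (hX 1)) (Measurable.ite (hWU 0) (hZ 0) (hZ 1))))
  have hT₃ : Measurable T₃ := by
    refine Measurable.ite hUm hA₃ (Measurable.ite (hYU 0) (hX 0)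
      (Measurable.ite (hYU 1) (hX 1) (Measurable.ite (hWU 0) ((hY 0).comp (hZ 0))
        ((hY 1).comp (hZ 1)))))
  -- values
  have v2U : ∀ x ∈ U, T₂ x = A₂ x := fun x hx => if_pos hx
  have v3U : ∀ x ∈ U, T₃ x = A₃ x := fun x hx => if_pos hx
  have v2Y : ∀ i, ∀ x ∈ U, T₂ (Y i x) = W i x := by
    intro i x hx
    fin_cases i
    · have a : Y 0 x ∈ Y 0 '' U := mem_image_of_mem _ hx
      simp only [T₂, Fin.zero_eta, if_neg (ne1 0 x hx), if_pos a, hYX 0 x hx]
    · have a : Y 1 x ∈ Y 1 '' U := mem_image_of_mem _ hx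
      simp only [T₂, Fin.mk_one, if_neg (ne1 1 x hx), if_neg (ne4 x hx), if_pos a, hYX 1 x hx]
  have v3Y : ∀ i, ∀ x ∈ U, T₃ (Y i x) = x := by
    intro i x hx
    fin_cases i
    · have a : Y 0 x ∈ Y 0 '' U := mem_image_of_mem _ hx
      simp only [T₃, Fin.zero_eta, if_neg (ne1 0 x hx), if_pos a, hYX 0 x hx]
    · have a : Y 1 x ∈ Y 1 '' U := mem_image_of_mem _ hx
      simp only [T₃, Fin.mk_one, if_neg (ne1 1 x hx), if_neg (ne4 x hx), if_pos a, hYX 1 x hx]
  have v2W : ∀ i, ∀ x ∈ U, T₂ (W i x) = x := by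
    intro i x hx
    fin_cases i
    · have a : W 0 x ∈ W 0 '' U := mem_image_of_mem _ hx
      simp only [T₂, Fin.zero_eta, if_neg (ne2 0 x hx), if_neg (ne3 0 0 x hx),
        if_neg (ne3 0 1 x hx), if_pos a, hWZ 0 x hx]
    · simp only [T₂, Fin.mk_one, if_neg (ne2 1 x hx), if_neg (ne3 1 0 x hx),
        if_neg (ne3 1 1 x hx), if_neg (ne5 x hx), hWZ 1 x hx]
  have v3W : ∀ i, ∀ x ∈ U, T₃ (W i x) = Y i x := by
    intro i x hx
    fin_cases i
    · have a : W 0 x ∈ W 0 '' U := mem_image_of_mem _ hx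
      simp only [T₃, Fin.zero_eta, if_neg (ne2 0 x hx), if_neg (ne3 0 0 x hx),
        if_neg (ne3 0 1 x hx), if_pos a, hWZ 0 x hx]
    · simp only [T₃, Fin.mk_one, if_neg (ne2 1 x hx), if_neg (ne3 1 0 x hx),
        if_neg (ne3 1 1 x hx), if_neg (ne5 x hx), hWZ 1 x hx]
  -- pushforwards
  have mapA₂ : m.map A₂ = (2⁻¹ : ℝ≥0∞) • m.map (Y 0) + (2⁻¹ : ℝ≥0∞) • m.map (Y 1) := by
    have h1 : m.map A₂ = (m.restrict S).map (fun x => Y 0 (D x)) +
        (m.restrict Sᶜ).map (fun x => Y 1 (D x)) :=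
      map_ite hS ((hY 0).comp hD) ((hY 1).comp hD)
    have h2 : (m.restrict S).map (fun x => Y 0 (D x)) = (2⁻¹ : ℝ≥0∞) • m.map (Y 0) := by
      rw [← Measure.map_smul, ← hDS, Measure.map_map (hY 0) hD]; rfl
    have h3 : (m.restrict Sᶜ).map (fun x => Y 1 (D x)) = (2⁻¹ : ℝ≥0∞) • m.map (Y 1) := by
      rw [← Measure.map_smul, ← hDS', Measure.map_map (hY 1) hD]; rfl
    rw [h1, h2, h3]
  have mapA₃ : m.map A₃ = (2⁻¹ : ℝ≥0∞) • m.map (W 0) + (2⁻¹ : ℝ≥0∞) • m.map (W 1) := by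
    have h1 : m.map A₃ = (m.restrict S).map (fun x => W 0 (D x)) +
        (m.restrict Sᶜ).map (fun x => W 1 (D x)) :=
      map_ite hS ((hW 0).comp hD) ((hW 1).comp hD)
    have h2 : (m.restrict S).map (fun x => W 0 (D x)) = (2⁻¹ : ℝ≥0∞) • m.map (W 0) := by
      rw [← Measure.map_smul, ← hDS, Measure.map_map (hW 0) hD]; rfl
    have h3 : (m.restrict Sᶜ).map (fun x => W 1 (D x)) = (2⁻¹ : ℝ≥0∞) • m.map (W 1) := by
      rw [← Measure.map_smul, ← hDS', Measure.map_map (hW 1) hD]; rfl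
    rw [h1, h2, h3]
  have half : ∀ ν : Measure E, (2 : ℝ≥0∞) • ((2⁻¹ : ℝ≥0∞) • ν) = ν := by
    intro ν
    rw [smul_smul, ENNReal.mul_inv_cancel (by simp) (by simp), one_smul]
  have hmapid : m.map (fun x => x) = m := Measure.map_id
  refine ⟨T₂, T₃, hT₂, hT₃, ?_, ?_, ?_⟩
  · rw [map_mu5 hY hW hT₂]
    have e0 : m.map T₂ = m.map A₂ := Measure.map_congr (hU.mono fun x hx => v2U x hx)
    have e1 : ∀ i, m.map (fun x => T₂ (Y i x)) = m.map (W i) := fun i =>
      Measure.map_congr (hU.mono fun x hx => v2Y i x hx)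
    have e2 : ∀ i, m.map (fun x => T₂ (W i x)) = m := fun i =>
      (Measure.map_congr (hU.mono fun x hx => v2W i x hx)).trans hmapid
    simp only [e0, e1, e2, mapA₂, mu5, Fin.sum_univ_two, smul_add, half, two_smul]
    abel
  · rw [map_mu5 hY hW hT₃]
    have e0 : m.map T₃ = m.map A₃ := Measure.map_congr (hU.mono fun x hx => v3U x hx)
    have e1 : ∀ i, m.map (fun x => T₃ (Y i x)) = m := fun i =>
      (Measure.map_congr (hU.mono fun x hx => v3Y i x hx)).trans hmapid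
    have e2 : ∀ i, m.map (fun x => T₃ (W i x)) = m.map (Y i) := fun i =>
      Measure.map_congr (hU.mono fun x hx => v3W i x hx)
    simp only [e0, e1, e2, mapA₃, mu5, Fin.sum_univ_two, smul_add, half, two_smul]
    abel
  · -- cost estimate
    have hKD : ∀ᵐ x ∂(m.restrict S), D x ∈ K := by
      have : ∀ᵐ x ∂((m.restrict S).map D), x ∈ K := by
        rw [hDS]; exact Measure.ae_smul_measure hK _
      exact ae_of_ae_map hD.aemeasurable this
    have hKD' : ∀ᵐ x ∂(m.restrict Sᶜ), D x ∈ K := by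
      have : ∀ᵐ x ∂((m.restrict Sᶜ).map D), x ∈ K := by
        rw [hDS']; exact Measure.ae_smul_measure hK _
      exact ae_of_ae_map hD.aemeasurable this
    have part : ∀ (i : Fin 2) (R : Set E), MeasurableSet R →
        (m.restrict R).map D = (2⁻¹ : ℝ≥0∞) • m → (∀ᵐ x ∂(m.restrict R), D x ∈ K) →
        ∫⁻ x in R, cost (x, Y i (D x), W i (D x)) ∂m ≤
          2⁻¹ * ∫⁻ x, cost (x, Y i x, W i x) ∂m + η * m R := by
      intro i R hR hmap hDK
      have hYi := hY i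
      have hWi := hW i
      calc ∫⁻ x in R, cost (x, Y i (D x), W i (D x)) ∂m
          ≤ ∫⁻ x in R, (cost (D x, Y i (D x), W i (D x)) + η) ∂m := by
            refine lintegral_mono_ae ?_
            filter_upwards [hDK, ae_restrict_of_ae hK, ae_restrict_of_ae hDx] with x h1 h2 h3
            exact hδ i x h2 _ h1 h3
        _ = ∫⁻ x in R, cost (D x, Y i (D x), W i (D x)) ∂m + η * m R := by
            rw [lintegral_add_right _ measurable_const, lintegral_const,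
              Measure.restrict_apply_univ]
        _ = 2⁻¹ * ∫⁻ x, cost (x, Y i x, W i x) ∂m + η * m R := by
            congr 1
            have hg : Measurable (fun x => cost (x, Y i x, W i x)) := by fun_prop
            have : ∫⁻ x, cost (x, Y i x, W i x) ∂((m.restrict R).map D) =
                ∫⁻ x in R, cost (D x, Y i (D x), W i (D x)) ∂m := lintegral_map hg hD
            rw [← this, hmap, lintegral_smul_measure, smul_eq_mul]
    have costA : ∫⁻ x, cost (x, T₂ x, T₃ x) ∂m ≤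
        2⁻¹ * ∫⁻ x, cost (x, Y 0 x, W 0 x) ∂m + 2⁻¹ * ∫⁻ x, cost (x, Y 1 x, W 1 x) ∂m +
          η * m univ := by
      rw [← lintegral_add_compl _ hS]
      have h1 : ∫⁻ x in S, cost (x, T₂ x, T₃ x) ∂m =
          ∫⁻ x in S, cost (x, Y 0 (D x), W 0 (D x)) ∂m := by
        refine lintegral_congr_ae ?_
        filter_upwards [ae_restrict_of_ae hU, ae_restrict_mem hS] with x hxU hxS
        rw [v2U x hxU, v3U x hxU]
        simp only [A₂, A₃, if_pos hxS]
      have h2 : ∫⁻ x in Sᶜ, cost (x, T₂ x, T₃ x) ∂m =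
          ∫⁻ x in Sᶜ, cost (x, Y 1 (D x), W 1 (D x)) ∂m := by
        refine lintegral_congr_ae ?_
        filter_upwards [ae_restrict_of_ae hU, ae_restrict_mem hS.compl] with x hxU hxS
        rw [v2U x hxU, v3U x hxU]
        have hxS' : x ∉ S := hxS
        simp only [A₂, A₃, if_neg hxS']
      rw [h1, h2]
      calc _ ≤ (2⁻¹ * ∫⁻ x, cost (x, Y 0 x, W 0 x) ∂m + η * m S) +
            (2⁻¹ * ∫⁻ x, cost (x, Y 1 x, W 1 x) ∂m + η * m Sᶜ) :=
            add_le_add (part 0 S hS hDS hKD) (part 1 Sᶜ hS.compl hDS' hKD')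
        _ = _ := by
            rw [← measure_add_measure_compl hS, mul_add]
            ring
    have hYW : ∀ i, Measurable (fun x => cost (x, Y i x, W i x)) := by
      intro i
      have hYi := hY i
      have hWi := hW i
      fun_prop
    have hYW2 : ∀ i, Measurable (fun x => cost (Y i x, W i x, x)) := by
      intro i
      have hYi := hY i
      have hWi := hW i
      fun_prop
    rw [lintegral_mu5 hY hW (by fun_prop), lintegral_plan hY hW hcost]
    have eL : ∀ i, ∫⁻ x, (cost (x, T₂ x, T₃ x) + cost (Y i x, T₂ (Y i x), T₃ (Y i x)) +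
        cost (W i x, T₂ (W i x), T₃ (W i x))) ∂m =
        ∫⁻ x, cost (x, T₂ x, T₃ x) ∂m + ∫⁻ x, cost (Y i x, W i x, x) ∂m +
          ∫⁻ x, cost (W i x, x, Y i x) ∂m := by
      intro i
      rw [← lintegral_add_left (by fun_prop), ← lintegral_add_left (by
        have := hYW2 i
        fun_prop)]
      refine lintegral_congr_ae ?_
      filter_upwards [hU] with x hx
      rw [v2Y i x hx, v3Y i x hx, v2W i x hx, v3W i x hx]
    have eR : ∀ i, ∫⁻ x, (cost (x, Y i x, W i x) + cost (Y i x, W i x, x) +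
        cost (W i x, x, Y i x)) ∂m =
        ∫⁻ x, cost (x, Y i x, W i x) ∂m + ∫⁻ x, cost (Y i x, W i x, x) ∂m +
          ∫⁻ x, cost (W i x, x, Y i x) ∂m := by
      intro i
      have hs : Measurable (fun x => cost (x, Y i x, W i x) + cost (Y i x, W i x, x)) :=
        (hYW i).add (hYW2 i)
      rw [lintegral_add_left hs, lintegral_add_left (hYW i)]
    have hfin2 := hfin
    rw [lintegral_plan hY hW hcost] at hfin2
    simp only [eR, Fin.sum_univ_two] at hfin2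
    simp only [eL, eR, Fin.sum_univ_two]
    set a0 := ∫⁻ x, cost (x, Y 0 x, W 0 x) ∂m
    set a1 := ∫⁻ x, cost (x, Y 1 x, W 1 x) ∂m
    set b0 := ∫⁻ x, cost (Y 0 x, W 0 x, x) ∂m
    set b1 := ∫⁻ x, cost (Y 1 x, W 1 x, x) ∂m
    set c0 := ∫⁻ x, cost (W 0 x, x, Y 0 x) ∂m
    set c1 := ∫⁻ x, cost (W 1 x, x, Y 1 x) ∂m
    set t := ∫⁻ x, cost (x, T₂ x, T₃ x) ∂m
    have h2t : 2 * t ≤ a0 + a1 + η := by
      calc 2 * t ≤ 2 * (2⁻¹ * a0 + 2⁻¹ * a1 + η * m univ) := by gcongr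
        _ = (2 * 2⁻¹) * a0 + (2 * 2⁻¹) * a1 + η * (2 * m univ) := by ring
        _ ≤ a0 + a1 + η * 1 := by
            rw [ENNReal.mul_inv_cancel (by simp) (by simp), one_mul, one_mul]
            gcongr
        _ = a0 + a1 + η := by rw [mul_one]
    calc t + b0 + c0 + (t + b1 + c1) = 2 * t + (b0 + c0 + b1 + c1) := by ring
      _ ≤ a0 + a1 + η + (b0 + c0 + b1 + c1) := by gcongr
      _ = a0 + b0 + c0 + (a1 + b1 + c1) + η := by ring
      _ < a0 + b0 + c0 + (a1 + b1 + c1) + ε := ENNReal.add_lt_add_left hfin2 hηε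

end Crest.Agent.R130
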