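import Crest.Agent.R130.AtomlessMap
import Mathlib

/-!
# The two-to-one doubling map (L3 of the R130 blueprint)
-/

set_option autoImplicit false

open MeasureTheory Metric Set Filter Topology
open scoped ENNReal

namespace Crest.Agent.R130

/-- The fair coin on `Bool`. -/
noncomputable def coin : Measure Bool :=
  (2⁻¹ : ℝ≥0∞) • Measure.dirac true + (2⁻¹ : ℝ≥0∞) • Measure.dirac false

theorem coin_true : coin {true} = 2⁻¹ := by simp [coin]

theorem coin_false : coin {false} = 2⁻¹ := by simp [coin]

instance : IsProbabilityMeasure coin :=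
  ⟨by simp [coin, ENNReal.inv_two_add_inv_two]⟩

/-- **L3**: a two-to-one map, `ε`-close to the identity, mapping both halves `S`, `Sᶜ` of the
measure `m` onto half of `m`. -/
theorem doubling {E : Type*} [NormedAddCommGroup E] [InnerProductSpace ℝ E]
    [FiniteDimensional ℝ E] [Nontrivial E] [MeasureSpace E] [BorelSpace E]
    [(volume : Measure E).IsAddHaarMeasure] (m : Measure E) [IsFiniteMeasure m]
    (hm : m ≪ volume) (ε : ℝ) (hε : 0 < ε) :
    ∃ D : E → E, Measurable D ∧ ∃ S : Set E, MeasurableSet S ∧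
      (m.restrict S).map D = (2⁻¹ : ℝ≥0∞) • m ∧ (m.restrict Sᶜ).map D = (2⁻¹ : ℝ≥0∞) • m ∧
      ∀ᵐ x ∂m, dist (D x) x ≤ ε := by
  have hcomplete : CompleteSpace E := FiniteDimensional.complete ℝ E
  have hproper : ProperSpace E := FiniteDimensional.proper ℝ E
  have hna : NullSingletonClass m := by
    constructor
    intro x
    exact hm (measure_singleton x)
  -- the labelling by small balls
  have hcov : ∀ x : E, ∃ n, x ∈ ball (TopologicalSpace.denseSeq E n) (ε / 2) := by
    intro x
    obtain ⟨y, hy, hxy⟩ := Metric.dense_iff.1 (TopologicalSpace.denseRange_denseSeq E) x (ε / 2)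
      (by positivity)
    obtain ⟨n, rfl⟩ := hxy
    exact ⟨n, by rw [mem_ball_comm]; exact hy⟩
  classical
  set idx : E → ℕ := fun x => Nat.find (hcov x) with hidx
  have hidxm : Measurable idx := measurable_find hcov fun n => measurableSet_ball
  have hidxd : ∀ x y, idx x = idx y → dist x y ≤ ε := by
    intro x y hxy
    have h1 : x ∈ ball (TopologicalSpace.denseSeq E (idx x)) (ε / 2) := Nat.find_spec (hcov x)
    have h2 : y ∈ ball (TopologicalSpace.denseSeq E (idx y)) (ε / 2) := Nat.find_spec (hcov y)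
    rw [hxy] at h1
    rw [mem_ball] at h1 h2
    have := dist_triangle_right x y (TopologicalSpace.denseSeq E (idx y))
    linarith
  obtain ⟨T, hT, hTm, hTi⟩ := exists_map_eq_cell m (m.prod coin) idx (idx ∘ Prod.fst) hidxm
    (hidxm.comp measurable_fst) (by
      intro n
      have : (idx ∘ Prod.fst : E × Bool → ℕ) ⁻¹' {n} = (idx ⁻¹' {n}) ×ˢ univ := by
        ext p; simp
      rw [this, Measure.prod_prod, measure_univ, mul_one])
  have hS : MeasurableSet (T ⁻¹' (univ ×ˢ {true})) :=
    hT (MeasurableSet.univ.prod (measurableSet_singleton _))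
  have hDm : Measurable fun x => (T x).1 := measurable_fst.comp hT
  refine ⟨fun x => (T x).1, hDm, T ⁻¹' (univ ×ˢ {true}), hS, ?_, ?_, ?_⟩
  · ext V hV
    rw [Measure.map_apply hDm hV,
      Measure.restrict_apply (hDm hV), Measure.smul_apply, smul_eq_mul]
    have h1 : (fun x => (T x).1) ⁻¹' V ∩ T ⁻¹' (univ ×ˢ {true}) = T ⁻¹' (V ×ˢ {true}) := by
      ext x; simp
    rw [h1, ← Measure.map_apply hT (hV.prod (measurableSet_singleton _)), hTm, Measure.prod_prod,
      coin_true, mul_comm]
  · ext V hV
    rw [Measure.map_apply hDm hV,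
      Measure.restrict_apply (hDm hV), Measure.smul_apply, smul_eq_mul]
    have h1 : (fun x => (T x).1) ⁻¹' V ∩ (T ⁻¹' (univ ×ˢ {true}))ᶜ = T ⁻¹' (V ×ˢ {false}) := by
      ext x; simp
    rw [h1, ← Measure.map_apply hT (hV.prod (measurableSet_singleton _)), hTm, Measure.prod_prod,
      coin_false, mul_comm]
  · filter_upwards [hTi] with x hx
    exact hidxd _ _ hx

end Crest.Agent.R130
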