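import Crest.Agent.R130.Defs

/-!
# R130 (S0175), L2: the pushforward of `q² dx` under a smooth pair has a density with smooth
square root.
-/

set_option autoImplicit false

open MeasureTheory Metric Set
open scoped ENNReal ContDiff Topology
open Crest.AnalysisR.OT

namespace Crest.Agent.R130

/-- **L2** (pushforward has a density with smooth square root). -/
theorem push_density {E : Type*} [NormedAddCommGroup E] [NormedSpace ℝ E]
    [FiniteDimensional ℝ E] [MeasureSpace E] [BorelSpace E]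
    [(volume : Measure E).IsAddHaarMeasure] (U : Set E) (Y X : E → E) (h : SmoothPair U Y X)
    (q : E → ℝ) (hq0 : ∀ x, 0 ≤ q x) (hq : ContDiff ℝ ∞ q) (hqc : HasCompactSupport q)
    (hqU : tsupport q ⊆ U) :
    ∃ g : E → ℝ, (∀ x, 0 ≤ g x) ∧ ContDiff ℝ ∞ g ∧ HasCompactSupport g ∧ tsupport g ⊆ Y '' U ∧
      (measOfDensity fun x => q x ^ 2).map Y = measOfDensity fun x => g x ^ 2 := by
  classical
  have : CompleteSpace E := FiniteDimensional.complete ℝ E
  set V : Set E := Y '' U with hV
  have hVo : IsOpen V := h.isOpen_target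
  have hYX : ∀ y ∈ V, Y (X y) = y := by
    rintro _ ⟨x, hx, rfl⟩
    rw [h.left_inv x hx]
  have hXU : ∀ y ∈ V, X y ∈ U := by
    rintro _ ⟨x, hx, rfl⟩
    rw [h.left_inv x hx]; exact hx
  -- derivative of X on V
  have hXd : ∀ y ∈ V, DifferentiableAt ℝ X y := fun y hy =>
    (h.smooth_symm.contDiffAt (hVo.mem_nhds hy)).differentiableAt (by simp)
  have hYd : ∀ x ∈ U, DifferentiableAt ℝ Y x := fun x hx =>
    (h.smooth.contDiffAt (h.isOpen_source.mem_nhds hx)).differentiableAt (by simp)
  have hdet : ∀ y ∈ V, (fderiv ℝ X y).det ≠ 0 := by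
    intro y hy
    have h1 : HasFDerivAt (fun z => Y (X z)) ((fderiv ℝ Y (X y)).comp (fderiv ℝ X y)) y :=
      (hYd _ (hXU y hy)).hasFDerivAt.comp y (hXd y hy).hasFDerivAt
    have h2 : HasFDerivAt (fun z => Y (X z)) (ContinuousLinearMap.id ℝ E) y := by
      refine (hasFDerivAt_id y).congr_of_eventuallyEq ?_
      filter_upwards [hVo.mem_nhds hy] with z hz
      exact hYX z hz
    have h3 := h1.unique h2
    have h4 : LinearMap.det (((fderiv ℝ Y (X y)).comp (fderiv ℝ X y) : E →L[ℝ] E) : E →ₗ[ℝ] E)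
        = 1 := by
      rw [h3]; simp
    have h40 : (((fderiv ℝ Y (X y)).comp (fderiv ℝ X y) : E →L[ℝ] E) : E →ₗ[ℝ] E) =
        ((fderiv ℝ Y (X y) : E →L[ℝ] E) : E →ₗ[ℝ] E) ∘ₗ
          ((fderiv ℝ X y : E →L[ℝ] E) : E →ₗ[ℝ] E) := rfl
    rw [h40, LinearMap.det_comp] at h4
    intro h0
    have h5 : LinearMap.det ((fderiv ℝ X y : E →L[ℝ] E) : E →ₗ[ℝ] E) = 0 := h0
    rw [h5, mul_zero] at h4
    exact zero_ne_one h4
  -- the function
  set J : E → ℝ := fun y => |(fderiv ℝ X y).det| with hJ
  set g : E → ℝ := fun y => if y ∈ V then q (X y) * Real.sqrt (J y) else 0 with hg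
  have hg0 : ∀ y, 0 ≤ g y := by
    intro y
    by_cases hy : y ∈ V
    · simp only [hg, if_pos hy]; exact mul_nonneg (hq0 _) (Real.sqrt_nonneg _)
    · simp only [hg, if_neg hy]; exact le_rfl
  have hKc : IsCompact (Y '' tsupport q) :=
    hqc.isCompact.image_of_continuousOn (h.smooth.continuousOn.mono hqU)
  have hsupp : Function.support g ⊆ Y '' tsupport q := by
    intro y hy
    by_cases hyV : y ∈ V
    · have h1 : g y = q (X y) * Real.sqrt (J y) := by simp only [hg, if_pos hyV]
      rw [Function.mem_support, h1] at hy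
      have h2 : q (X y) ≠ 0 := left_ne_zero_of_mul hy
      exact ⟨X y, subset_tsupport q h2, hYX y hyV⟩
    · exact absurd (by simp only [hg, if_neg hyV]) hy
  have htsupp : tsupport g ⊆ Y '' tsupport q :=
    closure_minimal hsupp hKc.isClosed
  have hgc : HasCompactSupport g := hKc.of_isClosed_subset (isClosed_tsupport g) htsupp
  have hdetsm : ∀ y ∈ V, ContDiffAt ℝ ∞ (fun z => (fderiv ℝ X z).det) y := by
    intro y hy
    have h1 : ContDiffAt ℝ ∞ (fun z => fderiv ℝ X z) y :=
      (h.smooth_symm.contDiffAt (hVo.mem_nhds hy)).fderiv_right (m := ∞) (by simp)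
    -- det as a polynomial in the entries of a matrix
    let b := Module.finBasis ℝ E
    have h2 : ∀ A : E →L[ℝ] E, A.det = (LinearMap.toMatrix b b (A : E →ₗ[ℝ] E)).det := by
      intro A
      rw [LinearMap.det_toMatrix]
    have h3 : ∀ i j, ContDiffAt ℝ ∞
        (fun z => LinearMap.toMatrix b b ((fderiv ℝ X z : E →L[ℝ] E) : E →ₗ[ℝ] E) i j) y := by
      intro i j
      let L : (E →L[ℝ] E) →ₗ[ℝ] ℝ :=
        { toFun := fun A => LinearMap.toMatrix b b (A : E →ₗ[ℝ] E) i j
          map_add' := by intro A B; simp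
          map_smul' := by intro c A; simp }
      have hL : ContDiff ℝ ∞ (fun A => L A) := (LinearMap.toContinuousLinearMap L).contDiff
      exact hL.contDiffAt.comp y h1
    have h4 : (fun z => (fderiv ℝ X z).det) = fun z =>
        ∑ σ : Equiv.Perm (Fin (Module.finrank ℝ E)), ((Equiv.Perm.sign σ : ℤ) : ℝ) *
          ∏ i, LinearMap.toMatrix b b ((fderiv ℝ X z : E →L[ℝ] E) : E →ₗ[ℝ] E) (σ i) i := by
      funext z
      rw [h2, Matrix.det_apply']
    rw [h4]
    refine ContDiffAt.sum fun σ _ => ?_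
    exact contDiffAt_const.mul (contDiffAt_prod fun i _ => h3 _ _)
  have hgs : ContDiff ℝ ∞ g := by
    rw [contDiff_iff_contDiffAt]
    intro y
    by_cases hy : y ∈ V
    · have h1 : ContDiffAt ℝ ∞ (fun z => q (X z) * Real.sqrt (J z)) y := by
        have hXs : ContDiffAt ℝ ∞ X y := h.smooth_symm.contDiffAt (hVo.mem_nhds hy)
        have hJs : ContDiffAt ℝ ∞ J y := (hdetsm y hy).abs (hdet y hy)
        refine (hq.contDiffAt.comp y hXs).mul ?_
        exact hJs.sqrt (abs_ne_zero.mpr (hdet y hy))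
      refine h1.congr_of_eventuallyEq ?_
      filter_upwards [hVo.mem_nhds hy] with z hz
      simp only [hg, if_pos hz]
    · have hy' : y ∉ Y '' tsupport q := fun hyy => hy (image_mono hqU hyy)
      have h1 : ContDiffAt ℝ ∞ (fun _ : E => (0 : ℝ)) y := contDiffAt_const
      refine h1.congr_of_eventuallyEq ?_
      filter_upwards [hKc.isClosed.isOpen_compl.mem_nhds hy'] with z hz
      by_contra hne
      exact hz (hsupp hne)
  refine ⟨g, hg0, hgs, hgc, htsupp.trans (image_mono hqU), ?_⟩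
  -- the measure identity
  have hqm : Measurable fun x => ENNReal.ofReal (q x ^ 2) :=
    (hq.continuous.pow 2).measurable.ennreal_ofReal
  ext B hB
  rw [Measure.map_apply h.measurable hB]
  unfold measOfDensity
  rw [withDensity_apply _ (h.measurable hB), withDensity_apply _ hB]
  have hVm : MeasurableSet V := hVo.measurableSet
  have hUm : MeasurableSet U := h.isOpen_source.measurableSet
  -- left side: restrict to U
  have hL : ∫⁻ x in Y ⁻¹' B, ENNReal.ofReal (q x ^ 2) = ∫⁻ x in X '' (B ∩ V),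
      ENNReal.ofReal (q x ^ 2) := by
    have himg : X '' (B ∩ V) = Y ⁻¹' B ∩ U := by
      ext x
      constructor
      · rintro ⟨y, ⟨hyB, hyV⟩, rfl⟩
        exact ⟨by rw [mem_preimage, hYX y hyV]; exact hyB, hXU y hyV⟩
      · rintro ⟨hxB, hxU⟩
        exact ⟨Y x, ⟨hxB, mem_image_of_mem Y hxU⟩, h.left_inv x hxU⟩
    rw [himg, ← lintegral_indicator (h.measurable hB),
      ← lintegral_indicator ((h.measurable hB).inter hUm)]
    refine lintegral_congr fun x => ?_
    by_cases hxU : x ∈ U
    · by_cases hxB : x ∈ Y ⁻¹' B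
      · rw [indicator_of_mem hxB, indicator_of_mem (show x ∈ Y ⁻¹' B ∩ U from ⟨hxB, hxU⟩)]
      · rw [indicator_of_notMem hxB,
          indicator_of_notMem (s := Y ⁻¹' B ∩ U) (a := x) (fun hh => hxB hh.1)]
    · have hq0' : q x = 0 := by
        by_contra hne
        exact hxU (hqU (subset_tsupport q hne))
      rw [indicator_of_notMem (s := Y ⁻¹' B ∩ U) (a := x) (fun hh => hxU hh.2)]
      by_cases hxB : x ∈ Y ⁻¹' B
      · rw [indicator_of_mem hxB, hq0']; simp
      · rw [indicator_of_notMem hxB]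
  have hR : ∫⁻ y in B, ENNReal.ofReal (g y ^ 2) = ∫⁻ y in B ∩ V, ENNReal.ofReal (g y ^ 2) := by
    rw [← lintegral_indicator hB, ← lintegral_indicator (hB.inter hVm)]
    refine lintegral_congr fun y => ?_
    by_cases hyV : y ∈ V
    · by_cases hyB : y ∈ B
      · rw [indicator_of_mem hyB, indicator_of_mem (show y ∈ B ∩ V from ⟨hyB, hyV⟩)]
      · rw [indicator_of_notMem hyB,
          indicator_of_notMem (s := B ∩ V) (a := y) (fun hh => hyB hh.1)]
    · rw [indicator_of_notMem (s := B ∩ V) (a := y) (fun hh => hyV hh.2)]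
      by_cases hyB : y ∈ B
      · rw [indicator_of_mem hyB]
        simp only [hg, if_neg hyV]; simp
      · rw [indicator_of_notMem hyB]
  rw [hL, hR]
  rw [lintegral_image_eq_lintegral_abs_det_fderiv_mul (μ := (volume : Measure E))
    (f := X) (f' := fun y => fderiv ℝ X y) (hB.inter hVm)
    (fun y hy => (hXd y hy.2).hasFDerivAt.hasFDerivWithinAt)
    (fun y hy z hz hyz => by rw [← hYX y hy.2, ← hYX z hz.2, hyz])]
  refine setLIntegral_congr_fun (hB.inter hVm) ?_
  intro y hy
  have h1 : g y = q (X y) * Real.sqrt (J y) := by simp only [hg, if_pos hy.2]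
  show ENNReal.ofReal |(fderiv ℝ X y).det| * ENNReal.ofReal (q (X y) ^ 2) =
    ENNReal.ofReal (g y ^ 2)
  rw [h1, mul_pow, Real.sq_sqrt (abs_nonneg _), ← ENNReal.ofReal_mul (abs_nonneg _), mul_comm]

end Crest.Agent.R130
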