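import Crest.Agent.R130.Abstract

/-!
# R130 (S0175): Monge plans are strictly costlier
-/

set_option autoImplicit false

open MeasureTheory Set
open scoped ENNReal
open Crest.AnalysisR.OT

namespace Crest.Agent.R130

/-- The five clusters. -/
def clusters {E : Type*} (A : Set E) (Y W : Fin 2 → E → E) : Set E :=
  A ∪ (⋃ i, Y i '' A) ∪ (⋃ i, W i '' A)

variable {E : Type*} [NormedAddCommGroup E] [SecondCountableTopology E] [MeasurableSpace E]
  [BorelSpace E]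

theorem branch_null {m μ : Measure E} [IsFiniteMeasure m] {U : Set E} (hUm : MeasurableSet U)
    (hU : ∀ᵐ x ∂m, x ∈ U) (hμ : ∀ s : Set E, MeasurableSet s → 2 * m s ≤ μ s)
    {V V' : E → E} (hV : Measurable V) (hV' : Measurable V') (hVV : ∀ x ∈ U, V' (V x) = x)
    (hVU : MeasurableSet (V '' U))
    (hμV : ∀ s : Set E, s ⊆ V '' U → MeasurableSet s → μ s ≤ m (V ⁻¹' s))
    {T : E → E} (hT : Measurable T) (hTμ : μ.map T = μ) :
    m (U ∩ {x | T x = V x}) = 0 := by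
  set A := U ∩ {x | T x = V x} with hA
  have hAm : MeasurableSet A := hUm.inter (measurableSet_eq_fun hT hV)
  set s := V '' U ∩ V' ⁻¹' A with hs
  have hsm : MeasurableSet s := hVU.inter (hV' hAm)
  have h1 : m (V ⁻¹' s) ≤ m A := by
    refine measure_mono_ae ?_
    filter_upwards [hU] with x hx hxs
    have h2 : V' (V x) ∈ A := hxs.2
    rwa [hVV x hx] at h2
  have h2 : A ⊆ T ⁻¹' s := by
    intro x hx
    have hx2 : T x = V x := hx.2
    refine ⟨?_, ?_⟩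
    · rw [hx2]; exact mem_image_of_mem _ hx.1
    · show V' (T x) ∈ A
      rw [hx2, hVV x hx.1]
      exact hx
  have h3 : 2 * m A ≤ m A := calc
    2 * m A ≤ μ A := hμ A hAm
    _ ≤ μ (T ⁻¹' s) := measure_mono h2
    _ = (μ.map T) s := (Measure.map_apply hT hsm).symm
    _ = μ s := by rw [hTμ]
    _ ≤ m (V ⁻¹' s) := hμV s inter_subset_left hsm
    _ ≤ m A := h1
  by_contra h0
  have hfin : m A ≠ ⊤ := measure_ne_top _ _
  rw [two_mul] at h3
  have : m A < m A + m A := ENNReal.lt_add_right hfin h0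
  exact absurd h3 (not_le.mpr this)

omit [NormedAddCommGroup E] [SecondCountableTopology E] [BorelSpace E] in
theorem ae_mem_clusters {m : Measure E} {U : Set E} (hU : ∀ᵐ x ∂m, x ∈ U)
    {Y W : Fin 2 → E → E} (hY : ∀ i, Measurable (Y i)) (hW : ∀ i, Measurable (W i))
    (hNm : MeasurableSet (clusters U Y W)) :
    ∀ᵐ x ∂(mu5 m Y W), x ∈ clusters U Y W := by
  have h0 : ∀ x ∈ U, x ∈ clusters U Y W := fun x hx => Or.inl (Or.inl hx)
  have hYm : ∀ i, ∀ x ∈ U, Y i x ∈ clusters U Y W := fun i x hx =>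
    Or.inl (Or.inr (mem_iUnion.mpr ⟨i, mem_image_of_mem _ hx⟩))
  have hWm : ∀ i, ∀ x ∈ U, W i x ∈ clusters U Y W := fun i x hx =>
    Or.inr (mem_iUnion.mpr ⟨i, mem_image_of_mem _ hx⟩)
  rw [ae_iff]
  change mu5 m Y W (clusters U Y W)ᶜ = 0
  rw [mu5_apply hY hW hNm.compl]
  have e0 : m (clusters U Y W)ᶜ = 0 := by
    refine measure_mono_null ?_ hU
    intro x hx hxU
    exact hx (h0 x hxU)
  have e1 : ∀ i, m (Y i ⁻¹' (clusters U Y W)ᶜ) = 0 := by
    intro i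
    refine measure_mono_null ?_ hU
    intro x hx hxU
    exact hx (hYm i x hxU)
  have e2 : ∀ i, m (W i ⁻¹' (clusters U Y W)ᶜ) = 0 := by
    intro i
    refine measure_mono_null ?_ hU
    intro x hx hxU
    exact hx (hWm i x hxU)
  rw [e0, Finset.sum_eq_zero (fun i _ => e1 i), Finset.sum_eq_zero (fun i _ => e2 i)]
  simp

theorem monge_strict {m : Measure E} [IsFiniteMeasure m] (hm0 : m ≠ 0) {U : Set E}
    (hUm : MeasurableSet U) (hU : ∀ᵐ x ∂m, x ∈ U)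
    {Y X W Z : Fin 2 → E → E} (hY : ∀ i, Measurable (Y i)) (hX : ∀ i, Measurable (X i))
    (hW : ∀ i, Measurable (W i)) (hZ : ∀ i, Measurable (Z i))
    (hYX : ∀ i, ∀ x ∈ U, X i (Y i x) = x) (hWZ : ∀ i, ∀ x ∈ U, Z i (W i x) = x)
    (hYU : ∀ i, MeasurableSet (Y i '' U)) (hWU : ∀ i, MeasurableSet (W i '' U))
    (d1 : ∀ i, Disjoint U (Y i '' U)) (d2 : ∀ i, Disjoint U (W i '' U))
    (d3 : ∀ i j, Disjoint (Y i '' U) (W j '' U))
    (d4 : Disjoint (Y 0 '' U) (Y 1 '' U)) (d5 : Disjoint (W 0 '' U) (W 1 '' U))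
    {cost : E × E × E → ℝ≥0∞} (hcost : Measurable cost) {Φ : E → ℝ≥0∞} (hΦ : Measurable Φ)
    (hfin : ∫⁻ x, Φ x ∂(mu5 m Y W) ≠ ⊤)
    (hdual : ∀ x ∈ clusters U Y W, ∀ y ∈ clusters U Y W, ∀ z ∈ clusters U Y W,
      Φ x + Φ y + Φ z ≤ cost (x, y, z))
    (hslack : ∀ x ∈ U, ∀ y ∈ clusters U Y W, ∀ z ∈ clusters U Y W,
      Φ x + Φ y + Φ z = cost (x, y, z) → ∃ i, y = Y i x ∨ y = W i x)
    {T₂ T₃ : E → E} (hT₂ : Measurable T₂) (hT₃ : Measurable T₃)
    (hT₂μ : (mu5 m Y W).map T₂ = mu5 m Y W) (hT₃μ : (mu5 m Y W).map T₃ = mu5 m Y W) :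
    3 * ∫⁻ x, Φ x ∂(mu5 m Y W) < ∫⁻ x, cost (x, T₂ x, T₃ x) ∂(mu5 m Y W) := by
  set μ := mu5 m Y W with hμdef
  have hNm : MeasurableSet (clusters U Y W) :=
    (hUm.union (MeasurableSet.iUnion hYU)).union (MeasurableSet.iUnion hWU)
  have hN : ∀ᵐ x ∂μ, x ∈ clusters U Y W := ae_mem_clusters hU hY hW hNm
  have hN2 : ∀ᵐ x ∂μ, T₂ x ∈ clusters U Y W := by
    have : ∀ᵐ x ∂(μ.map T₂), x ∈ clusters U Y W := by rw [hT₂μ]; exact hN
    exact ae_of_ae_map hT₂.aemeasurable this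
  have hN3 : ∀ᵐ x ∂μ, T₃ x ∈ clusters U Y W := by
    have : ∀ᵐ x ∂(μ.map T₃), x ∈ clusters U Y W := by rw [hT₃μ]; exact hN
    exact ae_of_ae_map hT₃.aemeasurable this
  have hint : ∫⁻ x, (Φ x + Φ (T₂ x) + Φ (T₃ x)) ∂μ = 3 * ∫⁻ x, Φ x ∂μ := by
    have e2 : ∫⁻ x, Φ (T₂ x) ∂μ = ∫⁻ x, Φ x ∂μ := by
      conv_rhs => rw [← hT₂μ]
      rw [lintegral_map hΦ hT₂]
    have e3 : ∫⁻ x, Φ (T₃ x) ∂μ = ∫⁻ x, Φ x ∂μ := by
      conv_rhs => rw [← hT₃μ]
      rw [lintegral_map hΦ hT₃]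
    rw [lintegral_add_left (by fun_prop), lintegral_add_left (by fun_prop), e2, e3]
    ring
  have hle : (fun x => Φ x + Φ (T₂ x) + Φ (T₃ x)) ≤ᵐ[μ] fun x => cost (x, T₂ x, T₃ x) := by
    filter_upwards [hN, hN2, hN3] with x h1 h2 h3
    exact hdual _ h1 _ h2 _ h3
  rw [← hint]
  refine lt_of_le_of_ne (lintegral_mono_ae hle) ?_
  intro heq
  have hfin' : ∫⁻ x, (Φ x + Φ (T₂ x) + Φ (T₃ x)) ∂μ ≠ ⊤ := by
    rw [hint]
    exact ENNReal.mul_ne_top (by simp) hfin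
  have hae := ae_eq_of_ae_le_of_lintegral_le hle hfin' (by fun_prop) heq.ge
  -- transfer to m
  have hμge : ∀ s : Set E, MeasurableSet s → 2 * m s ≤ μ s := by
    intro s hs
    rw [hμdef, mu5_apply hY hW hs, add_assoc]
    exact le_self_add
  have hac : m ≪ μ := by
    refine Measure.AbsolutelyContinuous.mk fun s hs h0 => ?_
    have := hμge s hs
    rw [h0] at this
    simpa using this
  have hall : ∀ᵐ x ∂m, x ∈ ⋃ i, ((U ∩ {x | T₂ x = Y i x}) ∪ (U ∩ {x | T₂ x = W i x})) := by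
    filter_upwards [hac.ae_le hae, hac.ae_le hN2, hac.ae_le hN3, hU] with x h1 h2 h3 h4
    obtain ⟨i, hi⟩ := hslack x h4 _ h2 _ h3 h1
    refine mem_iUnion.mpr ⟨i, ?_⟩
    rcases hi with hi | hi
    · exact Or.inl ⟨h4, hi⟩
    · exact Or.inr ⟨h4, hi⟩
  -- disjointness bookkeeping
  have hne : ∀ {A B : Set E}, Disjoint A B → ∀ x, x ∈ A → x ∈ B → False := fun h x ha hb =>
    Set.disjoint_left.mp h ha hb
  have d4' : ∀ i j, i ≠ j → Disjoint (Y i '' U) (Y j '' U) := by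
    intro i j hij
    fin_cases i <;> fin_cases j
    · exact absurd rfl hij
    · exact d4
    · exact d4.symm
    · exact absurd rfl hij
  have d5' : ∀ i j, i ≠ j → Disjoint (W i '' U) (W j '' U) := by
    intro i j hij
    fin_cases i <;> fin_cases j
    · exact absurd rfl hij
    · exact d5
    · exact d5.symm
    · exact absurd rfl hij
  have null_of : ∀ (V : E → E) (s : Set E), (∀ x ∈ U, V x ∉ s) → m (V ⁻¹' s) = 0 := by
    intro V s h
    refine measure_mono_null ?_ hU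
    intro x hx hxU
    exact h x hxU hx
  have hYnull : ∀ i, m (U ∩ {x | T₂ x = Y i x}) = 0 := by
    intro i
    refine branch_null hUm hU hμge (hY i) (hX i) (hYX i) (hYU i) ?_ hT₂ hT₂μ
    intro s hs hsm
    rw [hμdef, mu5_apply hY hW hsm]
    have e0 : m s = 0 := null_of id s fun x hx hxs => hne (d1 i) x hx (hs hxs)
    have eW : ∀ j, m (W j ⁻¹' s) = 0 := fun j =>
      null_of (W j) s fun x hx hxs => hne (d3 i j) _ (hs hxs) (mem_image_of_mem _ hx)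
    have eY : ∀ j, j ≠ i → m (Y j ⁻¹' s) = 0 := fun j hj =>
      null_of (Y j) s fun x hx hxs => hne (d4' j i hj) _ (mem_image_of_mem _ hx) (hs hxs)
    rw [e0, Finset.sum_eq_single i (fun j _ hj => eY j hj) (by simp),
      Finset.sum_eq_zero (fun j _ => eW j)]
    simp
  have hWnull : ∀ i, m (U ∩ {x | T₂ x = W i x}) = 0 := by
    intro i
    refine branch_null hUm hU hμge (hW i) (hZ i) (hWZ i) (hWU i) ?_ hT₂ hT₂μ
    intro s hs hsm
    rw [hμdef, mu5_apply hY hW hsm]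
    have e0 : m s = 0 := null_of id s fun x hx hxs => hne (d2 i) x hx (hs hxs)
    have eY : ∀ j, m (Y j ⁻¹' s) = 0 := fun j =>
      null_of (Y j) s fun x hx hxs => hne (d3 j i) _ (mem_image_of_mem _ hx) (hs hxs)
    have eW : ∀ j, j ≠ i → m (W j ⁻¹' s) = 0 := fun j hj =>
      null_of (W j) s fun x hx hxs => hne (d5' j i hj) _ (mem_image_of_mem _ hx) (hs hxs)
    rw [e0, Finset.sum_eq_single i (fun j _ hj => eW j hj) (by simp),
      Finset.sum_eq_zero (fun j _ => eY j)]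
    simp
  have hzero : m (⋃ i, ((U ∩ {x | T₂ x = Y i x}) ∪ (U ∩ {x | T₂ x = W i x}))) = 0 := by
    rw [measure_iUnion_null_iff]
    intro i
    exact measure_union_null (hYnull i) (hWnull i)
  apply hm0
  rw [← Measure.measure_univ_eq_zero]
  have h5 : m (⋃ i, ((U ∩ {x | T₂ x = Y i x}) ∪ (U ∩ {x | T₂ x = W i x})))ᶜ = 0 := hall
  refine le_antisymm ?_ bot_le
  calc m univ ≤ m (⋃ i, ((U ∩ {x | T₂ x = Y i x}) ∪ (U ∩ {x | T₂ x = W i x}))) +
      m (⋃ i, ((U ∩ {x | T₂ x = Y i x}) ∪ (U ∩ {x | T₂ x = W i x})))ᶜ := by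
        rw [← Set.union_compl_self (⋃ i, ((U ∩ {x | T₂ x = Y i x}) ∪ (U ∩ {x | T₂ x = W i x})))]
        exact measure_union_le _ _
    _ = 0 := by rw [hzero, h5, add_zero]

end Crest.Agent.R130
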