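import Crest.Agent.R130.Abstract
import Crest.Agent.R130.Strict
import Crest.Agent.R130.Approx
import Crest.Agent.R130.Push
import Crest.Agent.R130.Doubling

/-!
# R130 (S0175): assembly of the final theorem from the certificate
-/

set_option autoImplicit false

open MeasureTheory Metric Set
open scoped ENNReal ContDiff Topology
open Crest.AnalysisR.OT

namespace Crest.Agent.R130

namespace Assembly

theorem pairCost_comm {E : Type*} [NormedAddCommGroup E] (s : ℝ) (x y : E) :
    pairCost s x y = pairCost s y x := by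
  simp only [pairCost, norm_sub_rev x y]

theorem tripleCost_rot {E : Type*} [NormedAddCommGroup E] (s : ℝ) (x y z : E) :
    tripleCost s (y, z, x) = tripleCost s (x, y, z) := by
  simp only [tripleCost]
  rw [pairCost_comm s y x, pairCost_comm s z x]
  ring

theorem tripleCost_rot' {E : Type*} [NormedAddCommGroup E] (s : ℝ) (x y z : E) :
    tripleCost s (z, x, y) = tripleCost s (x, y, z) := by
  rw [← tripleCost_rot s x y z, ← tripleCost_rot s y z x]

theorem measurable_tripleCost {E : Type*} [NormedAddCommGroup E] [MeasurableSpace E]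
    [BorelSpace E] [SecondCountableTopology E] (s : ℝ) :
    Measurable (tripleCost s : E × E × E → ℝ≥0∞) := by
  have h1 : Measurable (fun p : E × E => pairCost s p.1 p.2) := by
    unfold pairCost
    refine Measurable.pow_const ?_ _
    fun_prop
  have h2 : (tripleCost s : E × E × E → ℝ≥0∞) = fun p =>
      pairCost s p.1 p.2.1 + pairCost s p.1 p.2.2 + pairCost s p.2.1 p.2.2 := rfl
  rw [h2]
  have e1 : Measurable (fun p : E × E × E => pairCost s p.1 p.2.1) :=
    h1.comp (g := fun p : E × E => pairCost s p.1 p.2)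
      (f := fun p : E × E × E => (p.1, p.2.1)) (by fun_prop)
  have e2 : Measurable (fun p : E × E × E => pairCost s p.1 p.2.2) :=
    h1.comp (g := fun p : E × E => pairCost s p.1 p.2)
      (f := fun p : E × E × E => (p.1, p.2.2)) (by fun_prop)
  have e3 : Measurable (fun p : E × E × E => pairCost s p.2.1 p.2.2) :=
    h1.comp (g := fun p : E × E => pairCost s p.1 p.2)
      (f := fun p : E × E × E => (p.2.1, p.2.2)) (by fun_prop)
  exact (e1.add e2).add e3

theorem pairCost_eq {E : Type*} [NormedAddCommGroup E] (s : ℝ) {x y : E} (h : x ≠ y) :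
    pairCost s x y = ENNReal.ofReal (‖x - y‖ ^ (-s)) := by
  rw [pairCost, ENNReal.ofReal_rpow_of_pos (norm_pos_iff.mpr (sub_ne_zero.mpr h))]

theorem tripleCost_eq {E : Type*} [NormedAddCommGroup E] (s : ℝ) {x y z : E} (h1 : x ≠ y)
    (h2 : x ≠ z) (h3 : y ≠ z) :
    tripleCost s (x, y, z) = ENNReal.ofReal (c s x y z) := by
  simp only [tripleCost, pairCost_eq s h1, pairCost_eq s h2, pairCost_eq s h3]
  rw [← ENNReal.ofReal_add (by positivity) (by positivity),
    ← ENNReal.ofReal_add (by positivity) (by positivity)]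
  rfl

/-- Uniform continuity of the cost along the sheets. -/
theorem cost_unif {E : Type*} [NormedAddCommGroup E] (s : ℝ) {K : Set E} (hK : IsCompact K)
    {Y W : E → E} (hY : ContinuousOn Y K) (hW : ContinuousOn W K)
    (h1 : ∀ x ∈ K, ∀ x' ∈ K, x ≠ Y x') (h2 : ∀ x ∈ K, ∀ x' ∈ K, x ≠ W x')
    (h3 : ∀ x ∈ K, Y x ≠ W x) (η : ℝ≥0∞) (hη : 0 < η) :
    ∃ δ : ℝ, 0 < δ ∧ ∀ x ∈ K, ∀ x' ∈ K, dist x' x ≤ δ →
      tripleCost s (x, Y x', W x') ≤ tripleCost s (x', Y x', W x') + η := by
  obtain ⟨η', hη'0, hη'⟩ := ENNReal.lt_iff_exists_nnreal_btwn.mp hη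
  have hη'0' : (0 : ℝ) < (η' : ℝ) := by
    have : (0 : ℝ≥0∞) < (η' : ℝ≥0∞) := hη'0
    exact_mod_cast this
  have hcont : ContinuousOn (fun p : E × E => c s p.1 (Y p.2) (W p.2)) (K ×ˢ K) := by
    have hY' : ContinuousOn (fun p : E × E => Y p.2) (K ×ˢ K) :=
      hY.comp continuous_snd.continuousOn (fun p hp => hp.2)
    have hW' : ContinuousOn (fun p : E × E => W p.2) (K ×ˢ K) :=
      hW.comp continuous_snd.continuousOn (fun p hp => hp.2)
    have hfst : ContinuousOn (fun p : E × E => p.1) (K ×ˢ K) := continuous_fst.continuousOn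
    unfold c
    refine ContinuousOn.add (ContinuousOn.add ?_ ?_) ?_
    · refine ContinuousOn.rpow_const (hfst.sub hY').norm ?_
      intro p hp
      exact Or.inl (norm_ne_zero_iff.mpr (sub_ne_zero.mpr (h1 _ hp.1 _ hp.2)))
    · refine ContinuousOn.rpow_const (hfst.sub hW').norm ?_
      intro p hp
      exact Or.inl (norm_ne_zero_iff.mpr (sub_ne_zero.mpr (h2 _ hp.1 _ hp.2)))
    · refine ContinuousOn.rpow_const (hY'.sub hW').norm ?_
      intro p hp
      exact Or.inl (norm_ne_zero_iff.mpr (sub_ne_zero.mpr (h3 _ hp.2)))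
  have hunif := (hK.prod hK).uniformContinuousOn_of_continuous hcont
  rw [Metric.uniformContinuousOn_iff_le] at hunif
  obtain ⟨δ, hδ0, hδ⟩ := hunif η' hη'0'
  refine ⟨δ, hδ0, fun x hx x' hx' hd => ?_⟩
  have h := hδ (x, x') ⟨hx, hx'⟩ (x', x') ⟨hx', hx'⟩ (by
    rw [Prod.dist_eq]
    simp only [dist_self]
    rw [max_le_iff]
    exact ⟨by rw [dist_comm]; exact hd, hδ0.le⟩)
  rw [Real.dist_eq] at h
  have h4 : c s x (Y x') (W x') ≤ c s x' (Y x') (W x') + η' := by
    have := abs_le.mp h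
    linarith [this.2]
  rw [tripleCost_eq s (h1 x hx x' hx') (h2 x hx x' hx') (h3 x' hx'),
    tripleCost_eq s (h1 x' hx' x' hx') (h2 x' hx' x' hx') (h3 x' hx')]
  calc ENNReal.ofReal (c s x (Y x') (W x'))
      ≤ ENNReal.ofReal (c s x' (Y x') (W x') + η') := ENNReal.ofReal_le_ofReal h4
    _ ≤ ENNReal.ofReal (c s x' (Y x') (W x')) + ENNReal.ofReal η' := ENNReal.ofReal_add_le
    _ ≤ ENNReal.ofReal (c s x' (Y x') (W x')) + η := by
        rw [ENNReal.ofReal_coe_nnreal]
        gcongr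

end Assembly

/-- The certificate, packaged as a proposition. -/
def Certificate (E : Type*) [NormedAddCommGroup E] [NormedSpace ℝ E] [MeasurableSpace E]
    (s : ℝ) : Prop :=
    ∃ r > 0, ∃ Y X W Z : Fin 2 → E → E,
    ∃ Φ : E → ℝ≥0∞, ∃ M : ℝ≥0∞, M < ⊤ ∧ (∀ x, Φ x ≤ M) ∧ Measurable Φ ∧
      (∀ i, SmoothPair (ball 0 r) (Y i) (X i)) ∧ (∀ i, SmoothPair (ball 0 r) (W i) (Z i)) ∧
      -- pairwise disjointness of the five clusters
      (∀ i, Disjoint (ball 0 r) (Y i '' ball 0 r)) ∧ (∀ i, Disjoint (ball 0 r) (W i '' ball 0 r)) ∧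
      (∀ i j, Disjoint (Y i '' ball 0 r) (W j '' ball 0 r)) ∧
      Disjoint (Y 0 '' ball 0 r) (Y 1 '' ball 0 r) ∧ Disjoint (W 0 '' ball 0 r) (W 1 '' ball 0 r) ∧
      -- dual feasibility
      (∀ x ∈ clusters (ball 0 r) Y W, ∀ y ∈ clusters (ball 0 r) Y W,
        ∀ z ∈ clusters (ball 0 r) Y W,
        Φ x + Φ y + Φ z ≤ tripleCost s (x, y, z)) ∧
      -- complementary slackness
      (∀ x ∈ ball 0 r, ∀ y ∈ clusters (ball 0 r) Y W, ∀ z ∈ clusters (ball 0 r) Y W,
        Φ x + Φ y + Φ z = tripleCost s (x, y, z) → ∃ i, y = Y i x ∨ y = W i x) ∧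
      (∀ x ∈ ball 0 r, ∀ i, Φ x + Φ (Y i x) + Φ (W i x) = tripleCost s (x, Y i x, W i x))

theorem hasCompactSupport_sq {E : Type*} [TopologicalSpace E] {f : E → ℝ}
    (hf : HasCompactSupport f) : HasCompactSupport (fun x => f x ^ 2) := by
  have h := hf.mul_left (f := f)
  have e : (fun x => f x ^ 2) = f * f := by
    funext x
    rw [Pi.mul_apply, sq]
  rw [e]
  exact h

theorem integrable_sq {E : Type*} [NormedAddCommGroup E] [MeasureSpace E] [BorelSpace E]
    [IsFiniteMeasureOnCompacts (volume : Measure E)] {f : E → ℝ}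
    (hf : Continuous f) (hfs : HasCompactSupport f) : Integrable (fun x => f x ^ 2) := by
  have h : Continuous (fun x => f x ^ 2) := hf.pow 2
  exact h.integrable_of_hasCompactSupport (hasCompactSupport_sq hfs)

/-- A normalised bump function. -/
theorem exists_bump (E : Type*) [NormedAddCommGroup E] [InnerProductSpace ℝ E]
    [FiniteDimensional ℝ E] [MeasureSpace E] [BorelSpace E]
    [(volume : Measure E).IsAddHaarMeasure] (r : ℝ) (hr : 0 < r) :
    ∃ q : E → ℝ, (∀ x, 0 ≤ q x) ∧ ContDiff ℝ ∞ q ∧ HasCompactSupport q ∧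
      tsupport q ⊆ closedBall 0 (r / 2) ∧ ∫ x, q x ^ 2 = 1 / 6 := by
  let φ : ContDiffBump (0 : E) := ⟨r / 4, r / 2, by positivity, by linarith⟩
  have hφc : ContDiff ℝ ∞ (φ : E → ℝ) := φ.contDiff
  have hφsq_int : Integrable (fun x => φ x ^ 2) :=
    integrable_sq hφc.continuous φ.hasCompactSupport
  have hI : 0 < ∫ x, φ x ^ 2 := by
    rw [integral_pos_iff_support_of_nonneg (fun x => by positivity) hφsq_int]
    have hsub : ball (0 : E) (r / 4) ⊆ Function.support (fun x => φ x ^ 2) := by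
      intro x hx
      have : φ x = 1 := φ.one_of_mem_closedBall (ball_subset_closedBall hx)
      simp [this]
    exact lt_of_lt_of_le (measure_ball_pos volume _ (by positivity)) (measure_mono hsub)
  set I := ∫ x, φ x ^ 2 with hIdef
  refine ⟨fun x => Real.sqrt (1 / (6 * I)) * φ x,
    fun x => mul_nonneg (Real.sqrt_nonneg _) φ.nonneg, contDiff_const.mul hφc,
    φ.hasCompactSupport.mul_left, ?_, ?_⟩
  · have h1 : tsupport (φ : E → ℝ) = closedBall 0 (r / 2) := φ.tsupport_eq
    rw [← h1]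
    exact tsupport_mul_subset_right
  · have : ∀ x, (Real.sqrt (1 / (6 * I)) * φ x) ^ 2 = (1 / (6 * I)) * φ x ^ 2 := by
      intro x
      rw [mul_pow, Real.sq_sqrt (by positivity)]
    simp only [this]
    rw [integral_const_mul, ← hIdef]
    field_simp

open Assembly in
theorem main_of_certificate (E : Type*) [NormedAddCommGroup E] [InnerProductSpace ℝ E]
    [FiniteDimensional ℝ E] [Nontrivial E] [MeasureSpace E] [BorelSpace E]
    [(volume : Measure E).IsAddHaarMeasure] (s : ℝ) (hcert : Certificate E s) :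
    ∃ ρ : E → ℝ, (∀ x, 0 ≤ ρ x) ∧ ContDiff ℝ ∞ ρ ∧ HasCompactSupport ρ ∧
      ContDiff ℝ ∞ (fun x => Real.sqrt (ρ x)) ∧ ∫ x, ρ x = 1 ∧
      ∃ π₀ : Measure (E × E × E),
        IsCoupling₃ (measOfDensity ρ) π₀ ∧ ∫⁻ p, tripleCost s p ∂π₀ < ⊤ ∧
        (∀ π : Measure (E × E × E), IsCoupling₃ (measOfDensity ρ) π →
          ∫⁻ p, tripleCost s p ∂π₀ ≤ ∫⁻ p, tripleCost s p ∂π) ∧
        (∀ T₂ T₃ : E → E, Measurable T₂ → Measurable T₃ →
          (measOfDensity ρ).map T₂ = measOfDensity ρ → (measOfDensity ρ).map T₃ = measOfDensity ρ →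
          ∫⁻ p, tripleCost s p ∂π₀ < ∫⁻ x, tripleCost s (x, T₂ x, T₃ x) ∂(measOfDensity ρ)) ∧
        (∀ ε : ℝ≥0∞, 0 < ε → ∃ T₂ T₃ : E → E, Measurable T₂ ∧ Measurable T₃ ∧
          (measOfDensity ρ).map T₂ = measOfDensity ρ ∧ (measOfDensity ρ).map T₃ = measOfDensity ρ ∧
          ∫⁻ x, tripleCost s (x, T₂ x, T₃ x) ∂(measOfDensity ρ) < ∫⁻ p, tripleCost s p ∂π₀ + ε) := by
  classical
  obtain ⟨r, hr, Y, X, W, Z, Φ, M, hM, hΦM, hΦm, hYX, hWZ, d1, d2, d3, d4, d5, hdual, hslack,
    heq⟩ := hcert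
  obtain ⟨q, hq0, hqc, hqcs, hqK, hqint⟩ := exists_bump E r hr
  have hKU : closedBall (0 : E) (r / 2) ⊆ ball 0 r := closedBall_subset_ball (by linarith)
  have hqU : tsupport q ⊆ ball 0 r := hqK.trans hKU
  set m : Measure E := measOfDensity fun x => q x ^ 2 with hmdef
  have hq2m : Measurable (fun x => ENNReal.ofReal (q x ^ 2)) :=
    (hqc.continuous.measurable.pow_const 2).ennreal_ofReal
  have hq2int : Integrable (fun x => q x ^ 2) := integrable_sq hqc.continuous hqcs
  have hmuniv : m univ = ENNReal.ofReal (1 / 6) := by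
    rw [hmdef, measOfDensity, withDensity_apply _ MeasurableSet.univ, Measure.restrict_univ,
      ← ofReal_integral_eq_lintegral_ofReal hq2int (Filter.Eventually.of_forall fun x => by positivity),
      hqint]
  have hmfin : IsFiniteMeasure m := ⟨by rw [hmuniv]; exact ENNReal.ofReal_lt_top⟩
  have hm0 : m ≠ 0 := by
    intro h
    rw [h, Measure.coe_zero, Pi.zero_apply] at hmuniv
    exact absurd hmuniv.symm (ENNReal.ofReal_pos.mpr (by norm_num)).ne'
  have hmK : ∀ᵐ x ∂m, x ∈ closedBall (0 : E) (r / 2) := by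
    rw [hmdef, measOfDensity, ae_withDensity_iff hq2m]
    refine Filter.Eventually.of_forall fun x hx => ?_
    by_contra hxK
    apply hx
    have : q x = 0 := by
      by_contra hne
      exact hxK (hqK (subset_tsupport _ hne))
    simp [this]
  have hmU : ∀ᵐ x ∂m, x ∈ ball (0 : E) r := hmK.mono fun x hx => hKU hx
  have hmac : m ≪ volume := withDensity_absolutelyContinuous _ _
  -- measurability
  have hY : ∀ i, Measurable (Y i) := fun i => (hYX i).measurable
  have hX : ∀ i, Measurable (X i) := fun i => (hYX i).measurable_symm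
  have hW : ∀ i, Measurable (W i) := fun i => (hWZ i).measurable
  have hZ : ∀ i, Measurable (Z i) := fun i => (hWZ i).measurable_symm
  have hYU : ∀ i, MeasurableSet (Y i '' ball 0 r) := fun i => (hYX i).isOpen_target.measurableSet
  have hWU : ∀ i, MeasurableSet (W i '' ball 0 r) := fun i => (hWZ i).isOpen_target.measurableSet
  -- pushforward densities
  have hpY : ∀ i, ∃ g : E → ℝ, (∀ x, 0 ≤ g x) ∧ ContDiff ℝ ∞ g ∧ HasCompactSupport g ∧
      tsupport g ⊆ Y i '' ball 0 r ∧
      m.map (Y i) = measOfDensity fun x => g x ^ 2 := fun i =>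
    push_density (ball 0 r) (Y i) (X i) (hYX i) q hq0 hqc hqcs hqU
  have hpW : ∀ i, ∃ g : E → ℝ, (∀ x, 0 ≤ g x) ∧ ContDiff ℝ ∞ g ∧ HasCompactSupport g ∧
      tsupport g ⊆ W i '' ball 0 r ∧
      m.map (W i) = measOfDensity fun x => g x ^ 2 := fun i =>
    push_density (ball 0 r) (W i) (Z i) (hWZ i) q hq0 hqc hqcs hqU
  choose gY gY0 gYc gYs gYU gYm using hpY
  choose gW gW0 gWc gWs gWU gWm using hpW
  let G : E → ℝ := fun x => Real.sqrt 2 * q x + (gY 0 x + gY 1 x) + (gW 0 x + gW 1 x)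
  have hG0 : ∀ x, 0 ≤ G x := by
    intro x
    have h1 := hq0 x
    have h2 := gY0 0 x
    have h3 := gY0 1 x
    have h4 := gW0 0 x
    have h5 := gW0 1 x
    positivity
  have hGc : ContDiff ℝ ∞ G :=
    ((contDiff_const.mul hqc).add ((gYc 0).add (gYc 1))).add ((gWc 0).add (gWc 1))
  have hGs : HasCompactSupport G :=
    ((hqcs.mul_left (f' := q) (f := fun _ => Real.sqrt 2)).add ((gYs 0).add (gYs 1))).add
      ((gWs 0).add (gWs 1))
  -- products vanish
  have prod0 : ∀ (f g : E → ℝ) (A B : Set E), tsupport f ⊆ A → tsupport g ⊆ B → Disjoint A B →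
      ∀ x, f x * g x = 0 := by
    intro f g A B hf hg hAB x
    by_contra hne
    have h1 : f x ≠ 0 := left_ne_zero_of_mul hne
    have h2 : g x ≠ 0 := right_ne_zero_of_mul hne
    exact Set.disjoint_left.mp hAB (hf (subset_tsupport _ h1)) (hg (subset_tsupport _ h2))
  have hGsq : ∀ x, G x ^ 2 = 2 * q x ^ 2 + (gY 0 x ^ 2 + gY 1 x ^ 2) +
      (gW 0 x ^ 2 + gW 1 x ^ 2) := by
    intro x
    have e2 : Real.sqrt 2 ^ 2 = 2 := Real.sq_sqrt (by norm_num)
    have p1 := prod0 _ _ _ _ hqU (gYU 0) (d1 0) x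
    have p2 := prod0 _ _ _ _ hqU (gYU 1) (d1 1) x
    have p3 := prod0 _ _ _ _ hqU (gWU 0) (d2 0) x
    have p4 := prod0 _ _ _ _ hqU (gWU 1) (d2 1) x
    have p5 := prod0 _ _ _ _ (gYU 0) (gYU 1) d4 x
    have p6 := prod0 _ _ _ _ (gWU 0) (gWU 1) d5 x
    have p7 := prod0 _ _ _ _ (gYU 0) (gWU 0) (d3 0 0) x
    have p8 := prod0 _ _ _ _ (gYU 0) (gWU 1) (d3 0 1) x
    have p9 := prod0 _ _ _ _ (gYU 1) (gWU 0) (d3 1 0) x
    have p10 := prod0 _ _ _ _ (gYU 1) (gWU 1) (d3 1 1) x
    simp only [G]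
    linear_combination (q x ^ 2) * e2 + 2 * Real.sqrt 2 * (p1 + p2 + p3 + p4) +
      2 * (p5 + p6 + p7 + p8 + p9 + p10)
  -- the measure
  have meas_add : ∀ (f g : E → ℝ), Measurable f → (∀ x, 0 ≤ f x) → (∀ x, 0 ≤ g x) →
      measOfDensity (fun x => f x + g x) = measOfDensity f + measOfDensity g := by
    intro f g hf hf0 hg0
    simp only [measOfDensity]
    have h1 : (fun x => ENNReal.ofReal (f x + g x)) =
        (fun x => ENNReal.ofReal (f x)) + fun x => ENNReal.ofReal (g x) := by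
      funext x
      rw [Pi.add_apply, ENNReal.ofReal_add (hf0 x) (hg0 x)]
    rw [h1, withDensity_add_left hf.ennreal_ofReal]
  have hμ : measOfDensity (fun x => G x ^ 2) = mu5 m Y W := by
    have mq : Measurable (fun x => q x ^ 2) := hqc.continuous.measurable.pow_const 2
    have mY : ∀ i, Measurable (fun x => gY i x ^ 2) := fun i =>
      (gYc i).continuous.measurable.pow_const 2
    have mW : ∀ i, Measurable (fun x => gW i x ^ 2) := fun i =>
      (gWc i).continuous.measurable.pow_const 2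
    simp only [hGsq]
    have mq2 : Measurable (fun x => 2 * q x ^ 2) := mq.const_mul 2
    have mqY : Measurable (fun x => 2 * q x ^ 2 + (gY 0 x ^ 2 + gY 1 x ^ 2)) :=
      mq2.add ((mY 0).add (mY 1))
    rw [meas_add (fun x => 2 * q x ^ 2 + (gY 0 x ^ 2 + gY 1 x ^ 2))
      (fun x => gW 0 x ^ 2 + gW 1 x ^ 2) mqY (fun x => by positivity) (fun x => by positivity),
      meas_add (fun x => 2 * q x ^ 2) (fun x => gY 0 x ^ 2 + gY 1 x ^ 2) mq2
        (fun x => by positivity) (fun x => by positivity),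
      meas_add (fun x => gY 0 x ^ 2) (fun x => gY 1 x ^ 2) (mY 0) (fun x => by positivity)
        (fun x => by positivity),
      meas_add (fun x => gW 0 x ^ 2) (fun x => gW 1 x ^ 2) (mW 0) (fun x => by positivity)
        (fun x => by positivity)]
    rw [← gYm 0, ← gYm 1, ← gWm 0, ← gWm 1]
    simp only [mu5, Fin.sum_univ_two]
    congr 2
    rw [hmdef]
    simp only [measOfDensity]
    rw [← withDensity_smul _ hq2m]
    congr 1
    funext x
    rw [Pi.smul_apply, smul_eq_mul, ENNReal.ofReal_mul (by norm_num)]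
    simp
  have hμuniv : (mu5 m Y W) univ = 1 := by
    rw [mu5_apply hY hW MeasurableSet.univ]
    simp only [preimage_univ, hmuniv, Fin.sum_univ_two]
    have : (2 : ℝ≥0∞) = ENNReal.ofReal 2 := by simp
    rw [this, ← ENNReal.ofReal_mul (by norm_num), ← ENNReal.ofReal_add (by norm_num) (by norm_num),
      ← ENNReal.ofReal_add (by norm_num) (by norm_num),
      ← ENNReal.ofReal_add (by norm_num) (by norm_num)]
    norm_num
  have hint1 : ∫ x, G x ^ 2 = 1 := by
    have hGcont : Continuous (fun x => G x ^ 2) := hGc.continuous.pow 2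
    have hGnn : 0 ≤ᵐ[volume] (fun x => G x ^ 2) :=
      Filter.Eventually.of_forall fun x => sq_nonneg (G x)
    rw [integral_eq_lintegral_of_nonneg_ae hGnn hGcont.aestronglyMeasurable]
    have : ∫⁻ x, ENNReal.ofReal (G x ^ 2) = 1 := by
      have h1 := hμuniv
      rw [← hμ, measOfDensity, withDensity_apply _ MeasurableSet.univ, Measure.restrict_univ] at h1
      exact h1
    rw [this]
    simp
  -- potentials
  have hΦfin : ∫⁻ x, Φ x ∂(mu5 m Y W) ≠ ⊤ := by
    refine ne_top_of_le_ne_top hM.ne ?_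
    calc ∫⁻ x, Φ x ∂(mu5 m Y W) ≤ ∫⁻ _, M ∂(mu5 m Y W) := lintegral_mono hΦM
      _ = M := by rw [lintegral_const, hμuniv, mul_one]
  have hcostm : Measurable (tripleCost s : E × E × E → ℝ≥0∞) := measurable_tripleCost s
  have hplan : ∫⁻ p, tripleCost s p ∂(plan m Y W) = 3 * ∫⁻ x, Φ x ∂(mu5 m Y W) := by
    rw [lintegral_plan hY hW hcostm, lintegral_mu5 hY hW hΦm, Finset.mul_sum]
    refine Finset.sum_congr rfl fun i _ => ?_
    have hYi := hY i
    have hWi := hW i
    rw [← lintegral_const_mul _ (by fun_prop)]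
    refine lintegral_congr_ae ?_
    filter_upwards [hmU] with x hx
    rw [tripleCost_rot s x (Y i x) (W i x), tripleCost_rot' s x (Y i x) (W i x), ← heq x hx i]
    ring
  have hNm : MeasurableSet (clusters (ball 0 r) Y W) :=
    (measurableSet_ball.union (MeasurableSet.iUnion hYU)).union (MeasurableSet.iUnion hWU)
  refine ⟨fun x => G x ^ 2, fun x => by positivity, hGc.pow 2,
    hasCompactSupport_sq hGs, ?_, hint1, plan m Y W, ?_, ?_, ?_, ?_, ?_⟩
  · have : (fun x => Real.sqrt (G x ^ 2)) = G := by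
      funext x
      rw [Real.sqrt_sq (hG0 x)]
    rw [this]
    exact hGc
  · rw [hμ]
    exact isCoupling_plan hY hW
  · rw [hplan]
    exact (ENNReal.mul_ne_top (by simp) hΦfin).lt_top
  · intro π hπ
    rw [hμ] at hπ
    rw [hplan]
    exact lower_bound hΦm (ae_mem_clusters hmU hY hW hNm) hdual hπ
  · intro T₂ T₃ hT₂ hT₃ h2 h3
    rw [hμ] at h2 h3 ⊢
    rw [hplan]
    exact monge_strict hm0 measurableSet_ball hmU hY hX hW hZ (fun i => (hYX i).left_inv)
      (fun i => (hWZ i).left_inv) hYU hWU d1 d2 d3 d4 d5 hcostm hΦm hΦfin hdual hslack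
      hT₂ hT₃ h2 h3
  · intro ε hε
    rw [hμ]
    refine monge_approx (K := closedBall 0 (r / 2)) ?_ measurableSet_ball hKU hmK hY hX hW hZ
      (fun i => (hYX i).left_inv) (fun i => (hWZ i).left_inv) hYU hWU d1 d2 d3 d4 d5 hcostm
      ?_ ?_ ?_ ε hε
    · rw [hmuniv]
      have : (2 : ℝ≥0∞) = ENNReal.ofReal 2 := by simp
      rw [this, ← ENNReal.ofReal_mul (by norm_num)]
      exact ENNReal.ofReal_le_one.mpr (by norm_num)
    · intro η hη
      have hu : ∀ i, ∃ δ : ℝ, 0 < δ ∧ ∀ x ∈ closedBall (0 : E) (r / 2),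
          ∀ x' ∈ closedBall (0 : E) (r / 2), dist x' x ≤ δ →
          tripleCost s (x, Y i x', W i x') ≤ tripleCost s (x', Y i x', W i x') + η := by
        intro i
        refine cost_unif s (isCompact_closedBall 0 (r / 2))
          ((hYX i).smooth.continuousOn.mono hKU) ((hWZ i).smooth.continuousOn.mono hKU)
          ?_ ?_ ?_ η hη
        · intro x hx x' hx' h
          refine Set.disjoint_left.mp (d1 i) (hKU hx) ?_
          rw [h]
          exact mem_image_of_mem _ (hKU hx')
        · intro x hx x' hx' h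
          refine Set.disjoint_left.mp (d2 i) (hKU hx) ?_
          rw [h]
          exact mem_image_of_mem _ (hKU hx')
        · intro x hx h
          refine Set.disjoint_left.mp (d3 i i) (mem_image_of_mem _ (hKU hx)) ?_
          rw [h]
          exact mem_image_of_mem _ (hKU hx)
      choose δ hδ0 hδ using hu
      refine ⟨min (δ 0) (δ 1), lt_min (hδ0 0) (hδ0 1), fun i x hx x' hx' hdist => ?_⟩
      refine hδ i x hx x' hx' (hdist.trans ?_)
      fin_cases i
      · exact min_le_left _ _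
      · exact min_le_right _ _
    · intro ε' hε'
      exact doubling m hmac ε' hε'
    · rw [hplan]
      exact ENNReal.mul_ne_top (by simp) hΦfin

end Crest.Agent.R130
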