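import Crest.Agent.R130.Defs

/-! # R130 (S0175): lemma statements of the blueprint (all `sorry` here; proved in their own files). -/

set_option autoImplicit false

open MeasureTheory Metric Set
open scoped ENNReal ContDiff Topology
open Crest.AnalysisR.OT

namespace Crest.Agent.R130.Blueprint

/-- **L1** (local analysis; file `Local.lean`). -/
theorem local_structure {E : Type*} [NormedAddCommGroup E] [InnerProductSpace ℝ E]
    [FiniteDimensional ℝ E] [MeasurableSpace E] [BorelSpace E] (s : ℝ) (hs : 0 < s)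
    (b : E) (hb : b ≠ 0) :
    ∃ r₀ > 0, ∃ K : ℝ, 0 ≤ K ∧ ∃ Y X W Z : E → E, ∃ φb φc : E → ℝ,
      SmoothPair (ball (0 : E) r₀) Y X ∧ SmoothPair (ball (0 : E) r₀) W Z ∧
      Y 0 = b ∧ W 0 = -b ∧ φb b = 0 ∧ φc (-b) = 0 ∧
      ContinuousOn φb (Y '' ball 0 r₀) ∧ ContinuousOn φc (W '' ball 0 r₀) ∧
      (∀ x ∈ ball (0 : E) r₀, ∀ y ∈ Y '' ball 0 r₀, ∀ z ∈ W '' ball 0 r₀,
        c s 0 b (-b) - K * ‖x‖ ^ 2 + φb y + φc z ≤ c s x y z) ∧
      (∀ x ∈ ball (0 : E) r₀, ∀ y ∈ Y '' ball 0 r₀, ∀ z ∈ W '' ball 0 r₀,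
        c s 0 b (-b) - K * ‖x‖ ^ 2 + φb y + φc z = c s x y z → y = Y x ∧ z = W x) ∧
      (∀ x ∈ ball (0 : E) r₀,
        c s 0 b (-b) - K * ‖x‖ ^ 2 + φb (Y x) + φc (W x) = c s x (Y x) (W x)) := by
  sorry

/-- **L2** (pushforward has a density with smooth square root; file `Push.lean`). -/
theorem push_density {E : Type*} [NormedAddCommGroup E] [NormedSpace ℝ E]
    [FiniteDimensional ℝ E] [MeasureSpace E] [BorelSpace E]
    [(volume : Measure E).IsAddHaarMeasure] (U : Set E) (Y X : E → E) (h : SmoothPair U Y X)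
    (q : E → ℝ) (hq0 : ∀ x, 0 ≤ q x) (hq : ContDiff ℝ ∞ q) (hqc : HasCompactSupport q)
    (hqU : tsupport q ⊆ U) :
    ∃ g : E → ℝ, (∀ x, 0 ≤ g x) ∧ ContDiff ℝ ∞ g ∧ HasCompactSupport g ∧ tsupport g ⊆ Y '' U ∧
      (measOfDensity fun x => q x ^ 2).map Y = measOfDensity fun x => g x ^ 2 := by
  sorry

/-- **L3** (the two-to-one doubling map; file `Doubling.lean`). -/
theorem doubling {E : Type*} [NormedAddCommGroup E] [InnerProductSpace ℝ E]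
    [FiniteDimensional ℝ E] [Nontrivial E] [MeasureSpace E] [BorelSpace E]
    [(volume : Measure E).IsAddHaarMeasure] (m : Measure E) [IsFiniteMeasure m]
    (hm : m ≪ volume) (ε : ℝ) (hε : 0 < ε) :
    ∃ D : E → E, Measurable D ∧ ∃ S : Set E, MeasurableSet S ∧
      (m.restrict S).map D = (2⁻¹ : ℝ≥0∞) • m ∧ (m.restrict Sᶜ).map D = (2⁻¹ : ℝ≥0∞) • m ∧
      ∀ᵐ x ∂m, dist (D x) x ≤ ε := by
  sorry

/-- The five clusters. `Y 0, Y 1` are the two first branches, `W 0, W 1` the second ones. -/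
def N {E : Type*} (A : Set E) (Y W : Fin 2 → E → E) : Set E :=
  A ∪ (⋃ i, Y i '' A) ∪ (⋃ i, W i '' A)

/-- **L4** (the certificate, from L1 + cluster gap; file `Cert.lean`). `Φ` is the dual potential. -/
theorem certificate (d : ℕ) (hd : 2 ≤ d) (s : ℝ) (hs : 0 < s) :
    ∃ r > 0, ∃ Y X W Z : Fin 2 → EuclideanSpace ℝ (Fin d) → EuclideanSpace ℝ (Fin d),
    ∃ Φ : EuclideanSpace ℝ (Fin d) → ℝ≥0∞, ∃ M : ℝ≥0∞, M < ⊤ ∧ (∀ x, Φ x ≤ M) ∧ Measurable Φ ∧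
      (∀ i, SmoothPair (ball 0 r) (Y i) (X i)) ∧ (∀ i, SmoothPair (ball 0 r) (W i) (Z i)) ∧
      -- pairwise disjointness of the five clusters
      (∀ i, Disjoint (ball 0 r) (Y i '' ball 0 r)) ∧ (∀ i, Disjoint (ball 0 r) (W i '' ball 0 r)) ∧
      (∀ i j, Disjoint (Y i '' ball 0 r) (W j '' ball 0 r)) ∧
      Disjoint (Y 0 '' ball 0 r) (Y 1 '' ball 0 r) ∧ Disjoint (W 0 '' ball 0 r) (W 1 '' ball 0 r) ∧
      -- dual feasibility
      (∀ x ∈ N (ball 0 r) Y W, ∀ y ∈ N (ball 0 r) Y W, ∀ z ∈ N (ball 0 r) Y W,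
        Φ x + Φ y + Φ z ≤ tripleCost s (x, y, z)) ∧
      -- complementary slackness
      (∀ x ∈ ball 0 r, ∀ y ∈ N (ball 0 r) Y W, ∀ z ∈ N (ball 0 r) Y W,
        Φ x + Φ y + Φ z = tripleCost s (x, y, z) → ∃ i, y = Y i x ∨ y = W i x) ∧
      (∀ x ∈ ball 0 r, ∀ i, Φ x + Φ (Y i x) + Φ (W i x) = tripleCost s (x, Y i x, W i x)) := by
  sorry

end Crest.Agent.R130.Blueprint
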