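import Crest.Agent.R130.Cost

/-!
# L4: the certificate (five clusters), from the local structure L1
-/

set_option autoImplicit false

open MeasureTheory Metric Set Filter Topology
open scoped ENNReal ContDiff
open Crest.AnalysisR.OT

namespace Crest.Agent.R130

section SmoothPair

variable {E : Type*} [NormedAddCommGroup E] [NormedSpace ℝ E] [MeasurableSpace E]

theorem SmoothPair.mono_cert {U V : Set E} {Y X : E → E} (h : SmoothPair U Y X) (hV : IsOpen V)
    (hVU : V ⊆ U) : SmoothPair V Y X where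
  isOpen_source := hV
  isOpen_target := by
    have h1 : Y '' V = Y '' U ∩ X ⁻¹' V := by
      ext y
      constructor
      · rintro ⟨x, hx, rfl⟩
        exact ⟨⟨x, hVU hx, rfl⟩, by rw [mem_preimage, h.left_inv x (hVU hx)]; exact hx⟩
      · rintro ⟨⟨x, hx, rfl⟩, hx'⟩
        rw [mem_preimage, h.left_inv x hx] at hx'
        exact ⟨x, hx', rfl⟩
    rw [h1]
    exact h.smooth_symm.continuousOn.isOpen_inter_preimage h.isOpen_target hV
  smooth := h.smooth.mono hVU
  smooth_symm := h.smooth_symm.mono (image_mono hVU)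
  left_inv := fun x hx => h.left_inv x (hVU hx)
  measurable := h.measurable
  measurable_symm := h.measurable_symm

theorem SmoothPair.conj_cert [BorelSpace E] {U : Set E} {Y X : E → E} (h : SmoothPair U Y X)
    (τ : E ≃ₗᵢ[ℝ] E) :
    SmoothPair (τ '' U) (fun x => τ (Y (τ.symm x))) (fun x => τ (X (τ.symm x))) where
  isOpen_source := τ.toHomeomorph.isOpenMap _ h.isOpen_source
  isOpen_target := by
    have h1 : (fun x => τ (Y (τ.symm x))) '' (τ '' U) = τ '' (Y '' U) := by
      rw [image_image, image_image]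
      simp
    rw [h1]
    exact τ.toHomeomorph.isOpenMap _ h.isOpen_target
  smooth := by
    refine τ.contDiff.comp_contDiffOn (h.smooth.comp τ.symm.contDiff.contDiffOn ?_)
    rintro _ ⟨x, hx, rfl⟩
    simpa using hx
  smooth_symm := by
    refine τ.contDiff.comp_contDiffOn (h.smooth_symm.comp τ.symm.contDiff.contDiffOn ?_)
    rintro _ ⟨_, ⟨x, hx, rfl⟩, rfl⟩
    simp only [LinearIsometryEquiv.symm_apply_apply]
    exact ⟨x, hx, rfl⟩
  left_inv := by
    rintro _ ⟨x, hx, rfl⟩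
    simp [h.left_inv x hx]
  measurable := τ.continuous.measurable.comp (h.measurable.comp τ.symm.continuous.measurable)
  measurable_symm :=
    τ.continuous.measurable.comp (h.measurable_symm.comp τ.symm.continuous.measurable)

end SmoothPair

section Main

/-- The five clusters. `Y 0, Y 1` are the two first branches, `W 0, W 1` the second ones. -/
def N {E : Type*} (A : Set E) (Y W : Fin 2 → E → E) : Set E :=
  A ∪ (⋃ i, Y i '' A) ∪ (⋃ i, W i '' A)

variable {E : Type*} [NormedAddCommGroup E] [InnerProductSpace ℝ E]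

/-- The two symmetries: identity and `σ`. -/
def tw (σ : E ≃ₗᵢ[ℝ] E) (i : Fin 2) : E ≃ₗᵢ[ℝ] E := if i = 0 then LinearIsometryEquiv.refl ℝ E else σ

/-- The five cluster labels. -/
abbrev Lab := Option (Fin 2 × Bool)

/-- Parametrisation of the clusters by a ball around `0`. -/
def par (σ : E ≃ₗᵢ[ℝ] E) (Y W : E → E) : Lab → E → E
  | none => fun t => t
  | some (i, true) => fun t => tw σ i (Y ((tw σ i).symm t))
  | some (i, false) => fun t => tw σ i (W ((tw σ i).symm t))

/-- Centres of the clusters. -/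
def ctr (σ : E ≃ₗᵢ[ℝ] E) (b : E) : Lab → E
  | none => 0
  | some (i, true) => tw σ i b
  | some (i, false) => -tw σ i b

/-- Real valued potentials, one function on space for each label. -/
noncomputable def pot (s : ℝ) (σ : E ≃ₗᵢ[ℝ] E) (b : E) (K : ℝ) (φb φc : E → ℝ) : Lab → E → ℝ
  | none => fun x => 2 * ‖b‖ ^ (-s) - K * ‖x‖ ^ 2
  | some (i, true) => fun y => ‖b + b‖ ^ (-s) / 2 + φb ((tw σ i).symm y)
  | some (i, false) => fun z => ‖b + b‖ ^ (-s) / 2 + φc ((tw σ i).symm z)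

/-- Values of the potentials at the centres. -/
noncomputable def val (s : ℝ) (b : E) : Lab → ℝ
  | none => 2 * ‖b‖ ^ (-s)
  | some _ => ‖b + b‖ ^ (-s) / 2

/-- Good triples of labels -/
def Good (i j k : Lab) : Prop :=
  ∃ a, (i = none ∧ j = some (a, true) ∧ k = some (a, false)) ∨
    (i = none ∧ k = some (a, true) ∧ j = some (a, false)) ∨
    (j = none ∧ i = some (a, true) ∧ k = some (a, false)) ∨
    (j = none ∧ k = some (a, true) ∧ i = some (a, false)) ∨
    (k = none ∧ i = some (a, true) ∧ j = some (a, false)) ∨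
    (k = none ∧ j = some (a, true) ∧ i = some (a, false))

theorem tw_norm (σ : E ≃ₗᵢ[ℝ] E) (i : Fin 2) (b : E) : ‖tw σ i b‖ = ‖b‖ := by
  simp

/-- strict triangle inequality used for the gap -/
theorem norm_sub_lt_of_norm_eq {u v : E} (h : ‖u‖ = ‖v‖) (hne : u ≠ -v) :
    ‖u - v‖ < ‖v + v‖ := by
  have h1 : ‖u - v‖ ^ 2 + ‖u + v‖ ^ 2 = 2 * ‖u‖ ^ 2 + 2 * ‖v‖ ^ 2 := by
    have := parallelogram_law_with_norm ℝ u v
    nlinarith [this]
  have h2 : 0 < ‖u + v‖ := by
    rw [norm_pos_iff]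
    intro h3
    exact hne (eq_neg_of_add_eq_zero_left h3)
  have h3 : ‖v + v‖ = 2 * ‖v‖ := by
    rw [← two_smul ℝ v, norm_smul]; simp
  rw [h3]
  rw [h] at h1
  nlinarith [norm_nonneg (u - v), norm_nonneg v]

omit [InnerProductSpace ℝ E] in
theorem pairCost_lower {s : ℝ} (hs : 0 < s) {x y : E} {R : ℝ} (h : ‖x - y‖ ≤ R) :
    ENNReal.ofReal (R ^ (-s)) ≤ pairCost s x y := by
  rcases eq_or_ne x y with rfl | hne
  · rw [pairCost_self hs]; exact le_top
  · rw [pairCost_of_ne s hne]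
    have h0 : 0 < ‖x - y‖ := norm_pos_iff.2 (sub_ne_zero.2 hne)
    exact ENNReal.ofReal_le_ofReal (Real.rpow_le_rpow_of_nonpos h0 h (by linarith))

omit [InnerProductSpace ℝ E] in
theorem pairCost_lower_strict {s : ℝ} (hs : 0 < s) {x y : E} {R : ℝ}
    (h : ‖x - y‖ < R) :
    ENNReal.ofReal (R ^ (-s)) < pairCost s x y := by
  rcases eq_or_ne x y with rfl | hne
  · rw [pairCost_self hs]; exact ENNReal.ofReal_lt_top
  · rw [pairCost_of_ne s hne]
    have h0 : 0 < ‖x - y‖ := norm_pos_iff.2 (sub_ne_zero.2 hne)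
    rw [ENNReal.ofReal_lt_ofReal_iff (by positivity)]
    exact Real.rpow_lt_rpow_of_neg h0 h (by linarith)

theorem norm_ctr_some (σ : E ≃ₗᵢ[ℝ] E) (b : E) (p : Fin 2 × Bool) :
    ‖ctr σ b (some p)‖ = ‖b‖ := by
  rcases p with ⟨i, β⟩
  cases β <;> simp [ctr]

theorem ctr_ne_neg (σ : E ≃ₗᵢ[ℝ] E) (b : E) (h1 : σ b ≠ b) (h2 : σ b ≠ -b)
    {a a' : Fin 2} (h : a ≠ a') (β β' : Bool) :
    ctr σ b (some (a, β)) ≠ -ctr σ b (some (a', β')) := by
  have h3 : b ≠ -σ b := fun h => h2 (by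
    rw [eq_neg_iff_add_eq_zero] at h ⊢
    rw [add_comm]; exact h)
  fin_cases a <;> fin_cases a' <;> simp at h <;> cases β <;> cases β' <;>
    simp [ctr, tw, h1, h1.symm, h2, h3]
  all_goals first
    | exact fun h => h2 h.symm
    | exact fun h => h3 h.symm

theorem norm_add_self_eq (b : E) : ‖b + b‖ = 2 * ‖b‖ := by
  rw [← two_smul ℝ b, norm_smul]; simp

/-- Gap for triples consisting of the centre and two non antipodal clusters. -/
theorem gap_one {s : ℝ} (hs : 0 < s) (σ : E ≃ₗᵢ[ℝ] E) {b : E} (hb : b ≠ 0) (h1 : σ b ≠ b)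
    (h2 : σ b ≠ -b) {a a' : Fin 2} (h : a ≠ a') (β β' : Bool) :
    ENNReal.ofReal (val s b none) + ENNReal.ofReal (val s b (some (a, β))) +
      ENNReal.ofReal (val s b (some (a', β'))) <
      tripleCost s (ctr σ b none, ctr σ b (some (a, β)), ctr σ b (some (a', β'))) := by
  have hb0 : 0 < ‖b‖ := norm_pos_iff.2 hb
  set u := ctr σ b (some (a, β)) with hu
  set v := ctr σ b (some (a', β')) with hv
  have hun : ‖u‖ = ‖b‖ := norm_ctr_some σ b _
  have hvn : ‖v‖ = ‖b‖ := norm_ctr_some σ b _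
  have huv : u ≠ -v := ctr_ne_neg σ b h1 h2 h β β'
  have h0u : (0 : E) ≠ u := by
    intro h0; rw [← h0, norm_zero] at hun; exact hb0.ne hun
  have h0v : (0 : E) ≠ v := by
    intro h0; rw [← h0, norm_zero] at hvn; exact hb0.ne hvn
  have hlt : ‖u - v‖ < ‖b + b‖ := by
    have := norm_sub_lt_of_norm_eq (hun.trans hvn.symm) huv
    rw [norm_add_self_eq, hvn] at this
    rw [norm_add_self_eq]; exact this
  have hpos : (0 : ℝ) ≤ ‖b + b‖ ^ (-s) := by positivity
  have hpos' : (0 : ℝ) ≤ ‖b‖ ^ (-s) := by positivity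
  have hL : ENNReal.ofReal (val s b none) + ENNReal.ofReal (val s b (some (a, β))) +
      ENNReal.ofReal (val s b (some (a', β'))) =
      ENNReal.ofReal (‖b‖ ^ (-s)) + ENNReal.ofReal (‖b‖ ^ (-s)) + ENNReal.ofReal (‖b + b‖ ^ (-s)) := by
    simp only [val]
    rw [← ENNReal.ofReal_add (by positivity) (by positivity),
      ← ENNReal.ofReal_add (by positivity) (by positivity),
      ← ENNReal.ofReal_add (by positivity) (by positivity),
      ← ENNReal.ofReal_add (by positivity) (by positivity)]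
    congr 1; ring
  rw [hL]
  simp only [tripleCost, ctr]
  rw [pairCost_of_ne s h0u, pairCost_of_ne s h0v, zero_sub, norm_neg, zero_sub, norm_neg, hun, hvn]
  exact ENNReal.add_lt_add_left (by simp) (pairCost_lower_strict hs hlt)

/-- Gap for triples avoiding the central cluster. -/
theorem gap_none {s : ℝ} (hs : 0 < s) (σ : E ≃ₗᵢ[ℝ] E) {b : E} (hb : b ≠ 0)
    (p q r : Fin 2 × Bool) :
    ENNReal.ofReal (val s b (some p)) + ENNReal.ofReal (val s b (some q)) +
      ENNReal.ofReal (val s b (some r)) <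
      tripleCost s (ctr σ b (some p), ctr σ b (some q), ctr σ b (some r)) := by
  have hb0 : 0 < ‖b‖ := norm_pos_iff.2 hb
  have hbb0 : 0 < ‖b + b‖ := by rw [norm_add_self_eq]; positivity
  have hle : ∀ p q : Fin 2 × Bool, ‖ctr σ b (some p) - ctr σ b (some q)‖ ≤ ‖b + b‖ := by
    intro p q
    refine (norm_sub_le _ _).trans ?_
    rw [norm_ctr_some, norm_ctr_some, norm_add_self_eq]; linarith
  have hp : (0 : ℝ) < ‖b + b‖ ^ (-s) := by positivity
  have hL : ENNReal.ofReal (val s b (some p)) + ENNReal.ofReal (val s b (some q)) +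
      ENNReal.ofReal (val s b (some r)) =
      ENNReal.ofReal (‖b + b‖ ^ (-s) + ‖b + b‖ ^ (-s) / 2) := by
    simp only [val]
    rw [← ENNReal.ofReal_add (by positivity) (by positivity),
      ← ENNReal.ofReal_add (by positivity) (by positivity)]
    congr 1; ring
  rw [hL]
  refine lt_of_lt_of_le ?_ (add_le_add (add_le_add (pairCost_lower hs (hle p q))
    (pairCost_lower hs (hle p r))) (pairCost_lower hs (hle q r)))
  rw [← ENNReal.ofReal_add (by positivity) (by positivity),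
      ← ENNReal.ofReal_add (by positivity) (by positivity),
      ENNReal.ofReal_lt_ofReal_iff (by positivity)]
  linarith

theorem good_of {a : Fin 2} {β β' : Bool} (h : β ≠ β') :
    Good none (some (a, β)) (some (a, β')) ∧ Good (some (a, β)) none (some (a, β')) ∧
    Good (some (a, β)) (some (a, β')) none := by
  cases β <;> cases β' <;> simp_all [Good]

omit [InnerProductSpace ℝ E] in
theorem val_nonneg (s : ℝ) (b : E) (i : Lab) : 0 ≤ val s b i := by
  cases i <;> simp only [val] <;> positivity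

/-- The gap at the cluster centres. -/
theorem gap {s : ℝ} (hs : 0 < s) (σ : E ≃ₗᵢ[ℝ] E) {b : E} (hb : b ≠ 0) (h1 : σ b ≠ b)
    (h2 : σ b ≠ -b) (i j k : Lab) (hg : ¬ Good i j k) :
    ENNReal.ofReal (val s b i) + ENNReal.ofReal (val s b j) + ENNReal.ofReal (val s b k) <
      tripleCost s (ctr σ b i, ctr σ b j, ctr σ b k) := by
  by_cases hd : i = j ∨ i = k ∨ j = k
  · rw [tripleCost_eq_top hs (by
      rcases hd with rfl | rfl | rfl
      · left; rfl
      · right; left; rfl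
      · right; right; rfl)]
    rw [← ENNReal.ofReal_add (val_nonneg s b _) (val_nonneg s b _),
      ← ENNReal.ofReal_add (add_nonneg (val_nonneg s b _) (val_nonneg s b _)) (val_nonneg s b _)]
    exact ENNReal.ofReal_lt_top
  push Not at hd
  obtain ⟨hij, hik, hjk⟩ := hd
  rcases i with _ | p
  · rcases j with _ | q
    · exact absurd rfl hij
    rcases k with _ | r
    · exact absurd rfl hik
    obtain ⟨a, β⟩ := q
    obtain ⟨a', β'⟩ := r
    rcases eq_or_ne a a' with rfl | haa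
    · exact absurd (good_of (a := a) (β := β) (β' := β') (fun h => hjk (by rw [h]))).1 hg
    · exact gap_one hs σ hb h1 h2 haa β β'
  rcases j with _ | q
  · rcases k with _ | r
    · exact absurd rfl hjk
    obtain ⟨a, β⟩ := p
    obtain ⟨a', β'⟩ := r
    rcases eq_or_ne a a' with rfl | haa
    · exact absurd (good_of (a := a) (β := β) (β' := β') (fun h => hik (by rw [h]))).2.1 hg
    · have := gap_one hs σ hb h1 h2 haa β β'
      rw [tripleCost_swap12, add_comm (ENNReal.ofReal (val s b none))] at this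
      exact this
  rcases k with _ | r
  · obtain ⟨a, β⟩ := p
    obtain ⟨a', β'⟩ := q
    rcases eq_or_ne a a' with rfl | haa
    · exact absurd (good_of (a := a) (β := β) (β' := β') (fun h => hij (by rw [h]))).2.2 hg
    · have := gap_one hs σ hb h1 h2 haa β β'
      rw [tripleCost_swap12, tripleCost_swap23, add_assoc,
        add_comm (ENNReal.ofReal (val s b none))] at this
      exact this
  exact gap_none hs σ hb p q r

/-- The local data furnished by L1. -/
structure LocalData [MeasurableSpace E] (s : ℝ) (b : E) (r₀ K : ℝ) (Y X W Z : E → E)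
    (φb φc : E → ℝ) : Prop where
  r₀_pos : 0 < r₀
  hY : SmoothPair (ball (0 : E) r₀) Y X
  hW : SmoothPair (ball (0 : E) r₀) W Z
  hY0 : Y 0 = b
  hW0 : W 0 = -b
  hφb : φb b = 0
  hφc : φc (-b) = 0
  hcb : ContinuousOn φb (Y '' ball 0 r₀)
  hcc : ContinuousOn φc (W '' ball 0 r₀)
  ineq : ∀ x ∈ ball (0 : E) r₀, ∀ y ∈ Y '' ball 0 r₀, ∀ z ∈ W '' ball 0 r₀,
    c s 0 b (-b) - K * ‖x‖ ^ 2 + φb y + φc z ≤ c s x y z
  ineq_eq : ∀ x ∈ ball (0 : E) r₀, ∀ y ∈ Y '' ball 0 r₀, ∀ z ∈ W '' ball 0 r₀,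
    c s 0 b (-b) - K * ‖x‖ ^ 2 + φb y + φc z = c s x y z → y = Y x ∧ z = W x
  eq : ∀ x ∈ ball (0 : E) r₀,
    c s 0 b (-b) - K * ‖x‖ ^ 2 + φb (Y x) + φc (W x) = c s x (Y x) (W x)

variable [MeasurableSpace E]

omit [InnerProductSpace ℝ E] [MeasurableSpace E] in
theorem LocalData.c_zero {s : ℝ} {b : E} : c s 0 b (-b) = 2 * ‖b‖ ^ (-s) + ‖b + b‖ ^ (-s) := by
  unfold c
  rw [zero_sub, zero_sub, norm_neg, neg_neg, sub_neg_eq_add]; ring

omit [MeasurableSpace E] in
theorem c_isom (s : ℝ) (τ : E ≃ₗᵢ[ℝ] E) (x y z : E) : c s (τ x) (τ y) (τ z) = c s x y z := by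
  unfold c
  rw [← map_sub, ← map_sub, ← map_sub, τ.norm_map, τ.norm_map, τ.norm_map]

theorem LocalData.continuousAt_par {s : ℝ} {b : E} {r₀ K : ℝ} {Y X W Z : E → E} {φb φc : E → ℝ}
    (L : LocalData s b r₀ K Y X W Z φb φc) (σ : E ≃ₗᵢ[ℝ] E) (i : Lab) :
    Tendsto (par σ Y W i) (𝓝 0) (𝓝 (ctr σ b i)) := by
  have h0 : (0 : E) ∈ ball (0 : E) r₀ := mem_ball_self L.r₀_pos
  have hYc : ContinuousAt Y 0 := (L.hY.smooth.continuousOn).continuousAt (isOpen_ball.mem_nhds h0)
  have hWc : ContinuousAt W 0 := (L.hW.smooth.continuousOn).continuousAt (isOpen_ball.mem_nhds h0)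
  have hYt : Tendsto Y (𝓝 0) (𝓝 b) := by simpa [ContinuousAt, L.hY0] using hYc
  have hWt : Tendsto W (𝓝 0) (𝓝 (-b)) := by simpa [ContinuousAt, L.hW0] using hWc
  rcases i with _ | ⟨a, β⟩
  · exact tendsto_id
  have hs : Tendsto (tw σ a).symm (𝓝 0) (𝓝 0) := by
    simpa using (tw σ a).symm.continuous.tendsto 0
  cases β
  · have := ((tw σ a).continuous.tendsto (-b)).comp (hWt.comp hs)
    simpa [ctr] using! this
  · exact ((tw σ a).continuous.tendsto b).comp (hYt.comp hs)

theorem LocalData.continuousAt_pot {s : ℝ} {b : E} {r₀ K : ℝ} {Y X W Z : E → E} {φb φc : E → ℝ}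
    (L : LocalData s b r₀ K Y X W Z φb φc) (σ : E ≃ₗᵢ[ℝ] E) (i : Lab) :
    Tendsto (fun t => pot s σ b K φb φc i (par σ Y W i t)) (𝓝 0) (𝓝 (val s b i)) := by
  have h0 : (0 : E) ∈ ball (0 : E) r₀ := mem_ball_self L.r₀_pos
  have hYc : ContinuousAt Y 0 := (L.hY.smooth.continuousOn).continuousAt (isOpen_ball.mem_nhds h0)
  have hWc : ContinuousAt W 0 := (L.hW.smooth.continuousOn).continuousAt (isOpen_ball.mem_nhds h0)
  have hYt : Tendsto Y (𝓝 0) (𝓝 b) := by simpa [ContinuousAt, L.hY0] using hYc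
  have hWt : Tendsto W (𝓝 0) (𝓝 (-b)) := by simpa [ContinuousAt, L.hW0] using hWc
  have hbt : Tendsto φb (𝓝 b) (𝓝 0) := by
    have h1 : b ∈ Y '' ball 0 r₀ := ⟨0, h0, L.hY0⟩
    have := L.hcb.continuousAt (L.hY.isOpen_target.mem_nhds h1)
    rw [← L.hφb]; exact this
  have hct : Tendsto φc (𝓝 (-b)) (𝓝 0) := by
    have h1 : -b ∈ W '' ball 0 r₀ := ⟨0, h0, L.hW0⟩
    have := L.hcc.continuousAt (L.hW.isOpen_target.mem_nhds h1)
    rw [← L.hφc]; exact this
  rcases i with _ | ⟨a, β⟩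
  · have h1 : Tendsto (fun t : E => 2 * ‖b‖ ^ (-s) - K * ‖t‖ ^ 2) (𝓝 0)
        (𝓝 (2 * ‖b‖ ^ (-s) - K * ‖(0 : E)‖ ^ 2)) :=
      Continuous.tendsto (by fun_prop) 0
    simpa [pot, par, val] using h1
  have hs : Tendsto (tw σ a).symm (𝓝 0) (𝓝 0) := by
    simpa using (tw σ a).symm.continuous.tendsto 0
  cases β
  · have := (hct.comp (hWt.comp hs)).const_add (‖b + b‖ ^ (-s) / 2)
    simpa [pot, par, val, Function.comp_def] using this
  · have := (hbt.comp (hYt.comp hs)).const_add (‖b + b‖ ^ (-s) / 2)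
    simpa [pot, par, val, Function.comp_def] using this

/-- The clusters. -/
def cl (σ : E ≃ₗᵢ[ℝ] E) (Y W : E → E) (r : ℝ) (i : Lab) : Set E := par σ Y W i '' ball 0 r

/-- Properties of a small radius. -/
structure SmallRadius (s : ℝ) (b : E) (r₀ K : ℝ) (Y W : E → E) (φb φc : E → ℝ)
    (σ : E ≃ₗᵢ[ℝ] E) (r : ℝ) : Prop where
  pos : 0 < r
  le : r ≤ r₀
  gap : ∀ i j k, ¬ Good i j k → ∀ x ∈ cl σ Y W r i, ∀ y ∈ cl σ Y W r j, ∀ z ∈ cl σ Y W r k,
    ENNReal.ofReal (pot s σ b K φb φc i x) + ENNReal.ofReal (pot s σ b K φb φc j y) +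
      ENNReal.ofReal (pot s σ b K φb φc k z) < tripleCost s (x, y, z)
  pot_pos : ∀ i, ∀ x ∈ cl σ Y W r i, 0 < pot s σ b K φb φc i x
  pot_lt : ∀ i, ∀ x ∈ cl σ Y W r i, pot s σ b K φb φc i x < val s b i + 1
  disj : ∀ i j, i ≠ j → Disjoint (cl σ Y W r i) (cl σ Y W r j)

theorem LocalData.exists_small {s : ℝ} (hs : 0 < s) {b : E} (hb : b ≠ 0) {r₀ K : ℝ}
    {Y X W Z : E → E} {φb φc : E → ℝ} (L : LocalData s b r₀ K Y X W Z φb φc) (σ : E ≃ₗᵢ[ℝ] E)
    (h1 : σ b ≠ b) (h2 : σ b ≠ -b) :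
    ∃ r, SmallRadius s b r₀ K Y W φb φc σ r := by
  -- the gap
  have e1 : ∀ᶠ t in 𝓝 (0 : E × E × E), ∀ i j k, ¬ Good i j k →
      ENNReal.ofReal (pot s σ b K φb φc i (par σ Y W i t.1)) +
      ENNReal.ofReal (pot s σ b K φb φc j (par σ Y W j t.2.1)) +
      ENNReal.ofReal (pot s σ b K φb φc k (par σ Y W k t.2.2)) <
      tripleCost s (par σ Y W i t.1, par σ Y W j t.2.1, par σ Y W k t.2.2) := by
    rw [eventually_all]; intro i
    rw [eventually_all]; intro j
    rw [eventually_all]; intro k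
    rw [eventually_all]; intro hg
    have t1 : Tendsto (fun t : E × E × E => t.1) (𝓝 0) (𝓝 0) := continuous_fst.tendsto 0
    have t2 : Tendsto (fun t : E × E × E => t.2.1) (𝓝 0) (𝓝 0) :=
      (continuous_fst.comp continuous_snd).tendsto 0
    have t3 : Tendsto (fun t : E × E × E => t.2.2) (𝓝 0) (𝓝 0) :=
      (continuous_snd.comp continuous_snd).tendsto 0
    have f1 := (ENNReal.continuous_ofReal.tendsto _).comp ((L.continuousAt_pot σ i).comp t1)
    have f2 := (ENNReal.continuous_ofReal.tendsto _).comp ((L.continuousAt_pot σ j).comp t2)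
    have f3 := (ENNReal.continuous_ofReal.tendsto _).comp ((L.continuousAt_pot σ k).comp t3)
    have g1 := (L.continuousAt_par σ i).comp t1
    have g2 := (L.continuousAt_par σ j).comp t2
    have g3 := (L.continuousAt_par σ k).comp t3
    have g := ((continuous_tripleCost s).tendsto (ctr σ b i, ctr σ b j, ctr σ b k)).comp
      (g1.prodMk_nhds (g2.prodMk_nhds g3))
    exact ((f1.add f2).add f3).eventually_lt g (gap hs σ hb h1 h2 i j k hg)
  have e2 : ∀ᶠ t in 𝓝 (0 : E), ∀ i, 0 < pot s σ b K φb φc i (par σ Y W i t) ∧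
      pot s σ b K φb φc i (par σ Y W i t) < val s b i + 1 := by
    rw [eventually_all]; intro i
    have hb0 : 0 < ‖b‖ := norm_pos_iff.2 hb
    have hbb0 : 0 < ‖b + b‖ := by rw [norm_add_self_eq]; positivity
    have hv : 0 < val s b i := by
      cases i <;> simp only [val] <;> positivity
    exact ((L.continuousAt_pot σ i).eventually (lt_mem_nhds hv)).and
      ((L.continuousAt_pot σ i).eventually (gt_mem_nhds (lt_add_one _)))
  have hctr : ∀ i j, i ≠ j → ctr σ b i ≠ ctr σ b j := by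
    have hb0 : 0 < ‖b‖ := norm_pos_iff.2 hb
    have key0 : ∀ p, ctr σ b none ≠ ctr σ b (some p) := by
      intro p hp
      have := norm_ctr_some σ b p
      rw [← hp] at this
      simp only [ctr, norm_zero] at this
      exact hb0.ne this
    intro i j hij
    rcases i with _ | p
    · rcases j with _ | q
      · exact absurd rfl hij
      · exact key0 q
    rcases j with _ | q
    · exact (key0 p).symm
    obtain ⟨a, β⟩ := p
    obtain ⟨a', β'⟩ := q
    rcases eq_or_ne a a' with rfl | haa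
    · have hββ : β ≠ β' := fun h => hij (by rw [h])
      have hne : tw σ a b ≠ -tw σ a b := by
        intro h
        have h3' : (2 : ℝ) • tw σ a b = 0 := by
          rw [two_smul]; nth_rewrite 2 [h]; simp
        have h3 : tw σ a b = 0 := (smul_eq_zero.1 h3').resolve_left two_ne_zero
        have h4 : ‖b‖ = 0 := by rw [← tw_norm σ a b, h3, norm_zero]
        exact hb0.ne' h4
      cases β <;> cases β'
      · exact absurd rfl hββ
      · exact hne.symm
      · exact hne
      · exact absurd rfl hββ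
    · have hneg : ctr σ b (some (a', β')) = -ctr σ b (some (a', !β')) := by
        cases β' <;> simp [ctr]
      rw [hneg]
      exact ctr_ne_neg σ b h1 h2 haa β (!β')
  have e3 : ∀ᶠ t in 𝓝 (0 : E × E), ∀ i j, i ≠ j → par σ Y W i t.1 ≠ par σ Y W j t.2 := by
    rw [eventually_all]; intro i
    rw [eventually_all]; intro j
    rw [eventually_all]; intro hij
    have t1 : Tendsto (fun t : E × E => t.1) (𝓝 0) (𝓝 0) := continuous_fst.tendsto 0
    have t2 : Tendsto (fun t : E × E => t.2) (𝓝 0) (𝓝 0) := continuous_snd.tendsto 0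
    have h12 := ((L.continuousAt_par σ i).comp t1).prodMk_nhds ((L.continuousAt_par σ j).comp t2)
    have hop : IsOpen (diagonal E)ᶜ := isClosed_diagonal.isOpen_compl
    exact h12.eventually (hop.mem_nhds (by simpa using hctr i j hij))
  obtain ⟨r1, hr1, H1⟩ := Metric.eventually_nhds_iff_ball.1 e1
  obtain ⟨r2, hr2, H2⟩ := Metric.eventually_nhds_iff_ball.1 e2
  obtain ⟨r3, hr3, H3⟩ := Metric.eventually_nhds_iff_ball.1 e3
  have hr0 := L.r₀_pos
  refine ⟨min (min r1 r2) (min r3 r₀), ⟨?_, ?_, ?_, ?_, ?_, ?_⟩⟩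
  · positivity
  · exact (min_le_right _ _).trans (min_le_right _ _)
  · rintro i j k hg _ ⟨t1, ht1, rfl⟩ _ ⟨t2, ht2, rfl⟩ _ ⟨t3, ht3, rfl⟩
    have hle : min (min r1 r2) (min r3 r₀) ≤ r1 := (min_le_left _ _).trans (min_le_left _ _)
    refine H1 (t1, t2, t3) ?_ i j k hg
    rw [mem_ball, dist_zero_right] at ht1 ht2 ht3 ⊢
    rw [Prod.norm_def, Prod.norm_def]
    simp only [max_lt_iff]
    exact ⟨ht1.trans_le hle, ht2.trans_le hle, ht3.trans_le hle⟩
  · rintro i _ ⟨t, ht, rfl⟩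
    have hle : min (min r1 r2) (min r3 r₀) ≤ r2 := (min_le_left _ _).trans (min_le_right _ _)
    exact (H2 t (ball_subset_ball hle ht) i).1
  · rintro i _ ⟨t, ht, rfl⟩
    have hle : min (min r1 r2) (min r3 r₀) ≤ r2 := (min_le_left _ _).trans (min_le_right _ _)
    exact (H2 t (ball_subset_ball hle ht) i).2
  · intro i j hij
    rw [Set.disjoint_left]
    rintro _ ⟨t1, ht1, rfl⟩ ⟨t2, ht2, h⟩
    have hle : min (min r1 r2) (min r3 r₀) ≤ r3 := (min_le_right _ _).trans (min_le_left _ _)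
    refine H3 (t1, t2) ?_ i j hij h.symm
    rw [mem_ball, dist_zero_right] at ht1 ht2 ⊢
    rw [Prod.norm_def]
    simp only [max_lt_iff]
    exact ⟨ht1.trans_le hle, ht2.trans_le hle⟩

section Fix

variable {s : ℝ} {b : E} {r₀ K : ℝ} {Y X W Z : E → E} {φb φc : E → ℝ} {σ : E ≃ₗᵢ[ℝ] E} {r : ℝ}

omit [MeasurableSpace E] in
theorem mem_ball_symm (τ : E ≃ₗᵢ[ℝ] E) {x : E} {r : ℝ} :
    τ.symm x ∈ ball (0 : E) r ↔ x ∈ ball (0 : E) r := by
  rw [mem_ball_zero_iff, mem_ball_zero_iff, LinearIsometryEquiv.norm_map]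

omit [MeasurableSpace E] in
theorem cl_none : cl σ Y W r none = ball 0 r := by
  simp [cl, par]

/-- The good inequality in real form. -/
theorem SmallRadius.good (S : SmallRadius s b r₀ K Y W φb φc σ r)
    (L : LocalData s b r₀ K Y X W Z φb φc) (a : Fin 2) {x y z : E} (hx : x ∈ cl σ Y W r none)
    (hy : y ∈ cl σ Y W r (some (a, true))) (hz : z ∈ cl σ Y W r (some (a, false))) :
    pot s σ b K φb φc none x + pot s σ b K φb φc (some (a, true)) y +
      pot s σ b K φb φc (some (a, false)) z ≤ c s x y z ∧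
    (pot s σ b K φb φc none x + pot s σ b K φb φc (some (a, true)) y +
      pot s σ b K φb φc (some (a, false)) z = c s x y z →
      y = par σ Y W (some (a, true)) x ∧ z = par σ Y W (some (a, false)) x) := by
  have hb := ball_subset_ball (x := (0 : E)) S.le
  rw [cl_none] at hx
  obtain ⟨t, ht, rfl⟩ := hy
  obtain ⟨u, hu, rfl⟩ := hz
  set τ := tw σ a with hτ
  have hx' : τ.symm x ∈ ball (0 : E) r₀ := (mem_ball_symm τ).2 (hb hx)
  have hy' : Y (τ.symm t) ∈ Y '' ball 0 r₀ := ⟨_, (mem_ball_symm τ).2 (hb ht), rfl⟩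
  have hz' : W (τ.symm u) ∈ W '' ball 0 r₀ := ⟨_, (mem_ball_symm τ).2 (hb hu), rfl⟩
  have hsum : pot s σ b K φb φc none x +
      pot s σ b K φb φc (some (a, true)) (par σ Y W (some (a, true)) t) +
      pot s σ b K φb φc (some (a, false)) (par σ Y W (some (a, false)) u) =
      c s 0 b (-b) - K * ‖τ.symm x‖ ^ 2 + φb (Y (τ.symm t)) + φc (W (τ.symm u)) := by
    rw [LocalData.c_zero, LinearIsometryEquiv.norm_map]
    simp only [pot, par, ← hτ, LinearIsometryEquiv.symm_apply_apply]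
    ring
  have hc : c s x (par σ Y W (some (a, true)) t) (par σ Y W (some (a, false)) u) =
      c s (τ.symm x) (Y (τ.symm t)) (W (τ.symm u)) := by
    rw [← c_isom s τ.symm]
    simp only [par, ← hτ, LinearIsometryEquiv.symm_apply_apply]
  rw [hsum, hc]
  refine ⟨L.ineq _ hx' _ hy' _ hz', fun h => ?_⟩
  obtain ⟨h1, h2⟩ := L.ineq_eq _ hx' _ hy' _ hz' h
  simp only [par, ← hτ]
  rw [h1, h2]
  exact ⟨rfl, rfl⟩

theorem SmallRadius.good_eq (S : SmallRadius s b r₀ K Y W φb φc σ r)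
    (L : LocalData s b r₀ K Y X W Z φb φc) (a : Fin 2) {x : E} (hx : x ∈ cl σ Y W r none) :
    pot s σ b K φb φc none x +
      pot s σ b K φb φc (some (a, true)) (par σ Y W (some (a, true)) x) +
      pot s σ b K φb φc (some (a, false)) (par σ Y W (some (a, false)) x) =
      c s x (par σ Y W (some (a, true)) x) (par σ Y W (some (a, false)) x) := by
  have hb := ball_subset_ball (x := (0 : E)) S.le
  rw [cl_none] at hx
  set τ := tw σ a with hτ
  have hx' : τ.symm x ∈ ball (0 : E) r₀ := (mem_ball_symm τ).2 (hb hx)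
  have hsum : pot s σ b K φb φc none x +
      pot s σ b K φb φc (some (a, true)) (par σ Y W (some (a, true)) x) +
      pot s σ b K φb φc (some (a, false)) (par σ Y W (some (a, false)) x) =
      c s 0 b (-b) - K * ‖τ.symm x‖ ^ 2 + φb (Y (τ.symm x)) + φc (W (τ.symm x)) := by
    rw [LocalData.c_zero, LinearIsometryEquiv.norm_map]
    simp only [pot, par, ← hτ, LinearIsometryEquiv.symm_apply_apply]
    ring
  have hc : c s x (par σ Y W (some (a, true)) x) (par σ Y W (some (a, false)) x) =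
      c s (τ.symm x) (Y (τ.symm x)) (W (τ.symm x)) := by
    rw [← c_isom s τ.symm]
    simp only [par, ← hτ, LinearIsometryEquiv.symm_apply_apply]
  rw [hsum, hc]
  exact L.eq _ hx'

omit [MeasurableSpace E] in
theorem SmallRadius.ne (S : SmallRadius s b r₀ K Y W φb φc σ r) {i j : Lab} (hij : i ≠ j)
    {x y : E} (hx : x ∈ cl σ Y W r i) (hy : y ∈ cl σ Y W r j) : x ≠ y := by
  rintro rfl
  exact Set.disjoint_left.1 (S.disj i j hij) hx hy

/-- The good inequality in `ℝ≥0∞`. -/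
theorem SmallRadius.good_enn (S : SmallRadius s b r₀ K Y W φb φc σ r)
    (L : LocalData s b r₀ K Y X W Z φb φc) (a : Fin 2) {x y z : E} (hx : x ∈ cl σ Y W r none)
    (hy : y ∈ cl σ Y W r (some (a, true))) (hz : z ∈ cl σ Y W r (some (a, false))) :
    ENNReal.ofReal (pot s σ b K φb φc none x) + ENNReal.ofReal (pot s σ b K φb φc (some (a, true)) y)
      + ENNReal.ofReal (pot s σ b K φb φc (some (a, false)) z) ≤ tripleCost s (x, y, z) ∧
    (ENNReal.ofReal (pot s σ b K φb φc none x) + ENNReal.ofReal (pot s σ b K φb φc (some (a, true)) y)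
      + ENNReal.ofReal (pot s σ b K φb φc (some (a, false)) z) = tripleCost s (x, y, z) →
      y = par σ Y W (some (a, true)) x ∧ z = par σ Y W (some (a, false)) x) := by
  have hxy : x ≠ y := S.ne (by simp) hx hy
  have hxz : x ≠ z := S.ne (by simp) hx hz
  have hyz : y ≠ z := S.ne (by simp) hy hz
  have p1 := S.pot_pos _ x hx
  have p2 := S.pot_pos _ y hy
  have p3 := S.pot_pos _ z hz
  obtain ⟨g1, g2⟩ := S.good L a hx hy hz
  rw [tripleCost_of_ne s hxy hxz hyz, ← ENNReal.ofReal_add p1.le p2.le,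
    ← ENNReal.ofReal_add (add_nonneg p1.le p2.le) p3.le]
  refine ⟨ENNReal.ofReal_le_ofReal g1, fun h => g2 ?_⟩
  have hcn : 0 ≤ c s x y z := by unfold c; positivity
  rwa [ENNReal.ofReal_eq_ofReal_iff (by positivity) hcn] at h

theorem SmallRadius.good_enn_eq (S : SmallRadius s b r₀ K Y W φb φc σ r)
    (L : LocalData s b r₀ K Y X W Z φb φc) (a : Fin 2) {x : E} (hx : x ∈ cl σ Y W r none) :
    ENNReal.ofReal (pot s σ b K φb φc none x) +
      ENNReal.ofReal (pot s σ b K φb φc (some (a, true)) (par σ Y W (some (a, true)) x)) +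
      ENNReal.ofReal (pot s σ b K φb φc (some (a, false)) (par σ Y W (some (a, false)) x)) =
      tripleCost s (x, par σ Y W (some (a, true)) x, par σ Y W (some (a, false)) x) := by
  have hx0 : x ∈ ball (0 : E) r := by rwa [cl_none] at hx
  have hy : par σ Y W (some (a, true)) x ∈ cl σ Y W r (some (a, true)) := ⟨x, hx0, rfl⟩
  have hz : par σ Y W (some (a, false)) x ∈ cl σ Y W r (some (a, false)) := ⟨x, hx0, rfl⟩
  have hxy := S.ne (by simp) hx hy
  have hxz := S.ne (by simp) hx hz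
  have hyz := S.ne (by simp) hy hz
  have p1 := S.pot_pos _ _ hx
  have p2 := S.pot_pos _ _ hy
  have p3 := S.pot_pos _ _ hz
  rw [tripleCost_of_ne s hxy hxz hyz, ← ENNReal.ofReal_add p1.le p2.le,
    ← ENNReal.ofReal_add (add_nonneg p1.le p2.le) p3.le, S.good_eq L a hx]

/-- The dual potential. -/
noncomputable def Pot (s : ℝ) (σ : E ≃ₗᵢ[ℝ] E) (b : E) (K : ℝ) (φb φc : E → ℝ) (Y W : E → E)
    (r : ℝ) (x : E) : ℝ≥0∞ :=
  ∑ i : Lab, (cl σ Y W r i).indicator (fun x => ENNReal.ofReal (pot s σ b K φb φc i x)) x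

omit [MeasurableSpace E] in
theorem SmallRadius.Pot_eq (S : SmallRadius s b r₀ K Y W φb φc σ r) {i : Lab} {x : E}
    (hx : x ∈ cl σ Y W r i) :
    Pot s σ b K φb φc Y W r x = ENNReal.ofReal (pot s σ b K φb φc i x) := by
  unfold Pot
  rw [Finset.sum_eq_single i]
  · rw [indicator_of_mem hx]
  · intro j _ hj
    rw [indicator_of_notMem]
    exact fun h => Set.disjoint_left.1 (S.disj i j hj.symm) hx h
  · intro h; exact absurd (Finset.mem_univ i) h

/-- Dual feasibility on the union of the clusters, with equality case. -/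
theorem SmallRadius.feasible (S : SmallRadius s b r₀ K Y W φb φc σ r)
    (L : LocalData s b r₀ K Y X W Z φb φc) {i j k : Lab} {x y z : E}
    (hx : x ∈ cl σ Y W r i) (hy : y ∈ cl σ Y W r j) (hz : z ∈ cl σ Y W r k) :
    Pot s σ b K φb φc Y W r x + Pot s σ b K φb φc Y W r y + Pot s σ b K φb φc Y W r z ≤
      tripleCost s (x, y, z) := by
  rw [S.Pot_eq hx, S.Pot_eq hy, S.Pot_eq hz]
  by_cases hg : Good i j k
  · obtain ⟨a, ⟨rfl, rfl, rfl⟩ | ⟨rfl, rfl, rfl⟩ | ⟨rfl, rfl, rfl⟩ | ⟨rfl, rfl, rfl⟩ |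
      ⟨rfl, rfl, rfl⟩ | ⟨rfl, rfl, rfl⟩⟩ := hg
    · exact (S.good_enn L a hx hy hz).1
    · have := (S.good_enn L a hx hz hy).1
      rw [tripleCost_swap23]
      refine le_trans (le_of_eq ?_) this
      ring
    · have := (S.good_enn L a hy hx hz).1
      rw [tripleCost_swap12]
      refine le_trans (le_of_eq ?_) this
      ring
    · have := (S.good_enn L a hy hz hx).1
      rw [tripleCost_swap12, tripleCost_swap23]
      refine le_trans (le_of_eq ?_) this
      ring
    · have := (S.good_enn L a hz hx hy).1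
      rw [tripleCost_swap23, tripleCost_swap12]
      refine le_trans (le_of_eq ?_) this
      ring
    · have := (S.good_enn L a hz hy hx).1
      rw [tripleCost_swap12, tripleCost_swap23, tripleCost_swap12]
      refine le_trans (le_of_eq ?_) this
      ring
  · exact (S.gap i j k hg x hx y hy z hz).le

theorem SmallRadius.slack (S : SmallRadius s b r₀ K Y W φb φc σ r)
    (L : LocalData s b r₀ K Y X W Z φb φc) {j k : Lab} {x y z : E}
    (hx : x ∈ cl σ Y W r none) (hy : y ∈ cl σ Y W r j) (hz : z ∈ cl σ Y W r k)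
    (h : Pot s σ b K φb φc Y W r x + Pot s σ b K φb φc Y W r y + Pot s σ b K φb φc Y W r z =
      tripleCost s (x, y, z)) :
    ∃ a, y = par σ Y W (some (a, true)) x ∨ y = par σ Y W (some (a, false)) x := by
  rw [S.Pot_eq hx, S.Pot_eq hy, S.Pot_eq hz] at h
  by_cases hg : Good none j k
  · obtain ⟨a, ⟨-, rfl, rfl⟩ | ⟨-, rfl, rfl⟩ | ⟨-, h', -⟩ | ⟨-, -, h'⟩ |
      ⟨-, h', -⟩ | ⟨-, -, h'⟩⟩ := hg
    · exact ⟨a, Or.inl ((S.good_enn L a hx hy hz).2 h).1⟩
    · refine ⟨a, Or.inr ((S.good_enn L a hx hz hy).2 ?_).2⟩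
      rw [tripleCost_swap23, ← h]; ring
    · exact absurd h' (by simp)
    · exact absurd h' (by simp)
    · exact absurd h' (by simp)
    · exact absurd h' (by simp)
  · exact absurd h (S.gap _ j k hg x hx y hy z hz).ne

end Fix

omit [MeasurableSpace E] in
theorem tw_image_ball (τ : E ≃ₗᵢ[ℝ] E) (r : ℝ) : τ '' ball (0 : E) r = ball 0 r := by
  simp

/-- The certificate from the local structure, in a general space. -/
theorem certificate_aux [FiniteDimensional ℝ E] [BorelSpace E] {s : ℝ} (hs : 0 < s) {b : E}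
    (hb : b ≠ 0) (σ : E ≃ₗᵢ[ℝ] E) (h1 : σ b ≠ b) (h2 : σ b ≠ -b)
    (hL : ∃ r₀ > 0, ∃ K : ℝ, 0 ≤ K ∧ ∃ Y X W Z : E → E, ∃ φb φc : E → ℝ,
      SmoothPair (ball (0 : E) r₀) Y X ∧ SmoothPair (ball (0 : E) r₀) W Z ∧
      Y 0 = b ∧ W 0 = -b ∧ φb b = 0 ∧ φc (-b) = 0 ∧
      ContinuousOn φb (Y '' ball 0 r₀) ∧ ContinuousOn φc (W '' ball 0 r₀) ∧
      (∀ x ∈ ball (0 : E) r₀, ∀ y ∈ Y '' ball 0 r₀, ∀ z ∈ W '' ball 0 r₀,
        c s 0 b (-b) - K * ‖x‖ ^ 2 + φb y + φc z ≤ c s x y z) ∧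
      (∀ x ∈ ball (0 : E) r₀, ∀ y ∈ Y '' ball 0 r₀, ∀ z ∈ W '' ball 0 r₀,
        c s 0 b (-b) - K * ‖x‖ ^ 2 + φb y + φc z = c s x y z → y = Y x ∧ z = W x) ∧
      (∀ x ∈ ball (0 : E) r₀,
        c s 0 b (-b) - K * ‖x‖ ^ 2 + φb (Y x) + φc (W x) = c s x (Y x) (W x))) :
    ∃ r > 0, ∃ Y X W Z : Fin 2 → E → E,
    ∃ Φ : E → ℝ≥0∞, ∃ M : ℝ≥0∞, M < ⊤ ∧ (∀ x, Φ x ≤ M) ∧ Measurable Φ ∧
      (∀ i, SmoothPair (ball 0 r) (Y i) (X i)) ∧ (∀ i, SmoothPair (ball 0 r) (W i) (Z i)) ∧
      (∀ i, Disjoint (ball 0 r) (Y i '' ball 0 r)) ∧ (∀ i, Disjoint (ball 0 r) (W i '' ball 0 r)) ∧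
      (∀ i j, Disjoint (Y i '' ball 0 r) (W j '' ball 0 r)) ∧
      Disjoint (Y 0 '' ball 0 r) (Y 1 '' ball 0 r) ∧ Disjoint (W 0 '' ball 0 r) (W 1 '' ball 0 r) ∧
      (∀ x ∈ N (ball 0 r) Y W, ∀ y ∈ N (ball 0 r) Y W, ∀ z ∈ N (ball 0 r) Y W,
        Φ x + Φ y + Φ z ≤ tripleCost s (x, y, z)) ∧
      (∀ x ∈ ball 0 r, ∀ y ∈ N (ball 0 r) Y W, ∀ z ∈ N (ball 0 r) Y W,
        Φ x + Φ y + Φ z = tripleCost s (x, y, z) → ∃ i, y = Y i x ∨ y = W i x) ∧
      (∀ x ∈ ball 0 r, ∀ i, Φ x + Φ (Y i x) + Φ (W i x) = tripleCost s (x, Y i x, W i x)) := by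
  obtain ⟨r₀, hr₀, K, -, Y, X, W, Z, φb, φc, hY, hW, hY0, hW0, hφb, hφc, hcb, hcc, i1, i2, i3⟩ := hL
  have L : LocalData s b r₀ K Y X W Z φb φc :=
    ⟨hr₀, hY, hW, hY0, hW0, hφb, hφc, hcb, hcc, i1, i2, i3⟩
  obtain ⟨r, S⟩ := L.exists_small hs hb σ h1 h2
  have hYr : SmoothPair (ball (0 : E) r) Y X := hY.mono_cert isOpen_ball (ball_subset_ball S.le)
  have hWr : SmoothPair (ball (0 : E) r) W Z := hW.mono_cert isOpen_ball (ball_subset_ball S.le)
  have hYi : ∀ i, SmoothPair (ball (0 : E) r) (par σ Y W (some (i, true)))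
      (fun x => tw σ i (X ((tw σ i).symm x))) := fun i => by
    have := hYr.conj_cert (tw σ i)
    rwa [tw_image_ball] at this
  have hWi : ∀ i, SmoothPair (ball (0 : E) r) (par σ Y W (some (i, false)))
      (fun x => tw σ i (Z ((tw σ i).symm x))) := fun i => by
    have := hWr.conj_cert (tw σ i)
    rwa [tw_image_ball] at this
  have hclm : ∀ i, MeasurableSet (cl σ Y W r i) := by
    intro i
    rcases i with _ | ⟨a, β⟩
    · rw [cl_none]; exact measurableSet_ball
    cases β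
    · exact (hWi a).isOpen_target.measurableSet
    · exact (hYi a).isOpen_target.measurableSet
  have hN : ∀ x ∈ N (ball 0 r) (fun i => par σ Y W (some (i, true)))
      (fun i => par σ Y W (some (i, false))), ∃ i, x ∈ cl σ Y W r i := by
    rintro x ((hx | hx) | hx)
    · exact ⟨none, by rw [cl_none]; exact hx⟩
    · obtain ⟨i, hi⟩ := mem_iUnion.1 hx
      exact ⟨some (i, true), hi⟩
    · obtain ⟨i, hi⟩ := mem_iUnion.1 hx
      exact ⟨some (i, false), hi⟩
  have hcont : ∀ i, ContinuousOn (pot s σ b K φb φc i) (cl σ Y W r i) := by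
    intro i
    rcases i with _ | ⟨a, β⟩
    · unfold pot; fun_prop
    cases β
    · unfold pot
      refine continuousOn_const.add (hcc.comp (tw σ a).symm.continuous.continuousOn ?_)
      rintro _ ⟨t, ht, rfl⟩
      simp only [par, LinearIsometryEquiv.symm_apply_apply]
      exact ⟨_, (mem_ball_symm _).2 (ball_subset_ball S.le ht), rfl⟩
    · unfold pot
      refine continuousOn_const.add (hcb.comp (tw σ a).symm.continuous.continuousOn ?_)
      rintro _ ⟨t, ht, rfl⟩
      simp only [par, LinearIsometryEquiv.symm_apply_apply]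
      exact ⟨_, (mem_ball_symm _).2 (ball_subset_ball S.le ht), rfl⟩
  refine ⟨r, S.pos, fun i => par σ Y W (some (i, true)), fun i x => tw σ i (X ((tw σ i).symm x)),
    fun i => par σ Y W (some (i, false)), fun i x => tw σ i (Z ((tw σ i).symm x)),
    Pot s σ b K φb φc Y W r, ∑ i : Lab, ENNReal.ofReal (val s b i + 1), ?_, ?_, ?_, hYi, hWi,
    ?_, ?_, ?_, ?_, ?_, ?_, ?_, ?_⟩
  · exact ENNReal.sum_lt_top.2 fun i _ => ENNReal.ofReal_lt_top
  · intro x
    refine Finset.sum_le_sum fun i _ => ?_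
    by_cases hx : x ∈ cl σ Y W r i
    · rw [indicator_of_mem hx]
      exact ENNReal.ofReal_le_ofReal (S.pot_lt i x hx).le
    · rw [indicator_of_notMem hx]; simp
  · refine Finset.measurable_sum _ fun i _ => ?_
    have h3 : ContinuousOn (fun x => ENNReal.ofReal (pot s σ b K φb φc i x)) (cl σ Y W r i) :=
      ENNReal.continuous_ofReal.comp_continuousOn (hcont i)
    classical
    have := h3.measurable_piecewise (g := (0 : E → ℝ≥0∞)) continuousOn_const (hclm i)
    rwa [Set.piecewise_eq_indicator] at this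
  · intro i
    have := S.disj none (some (i, true)) (by simp)
    rwa [cl_none] at this
  · intro i
    have := S.disj none (some (i, false)) (by simp)
    rwa [cl_none] at this
  · intro i j
    exact S.disj (some (i, true)) (some (j, false)) (by simp)
  · exact S.disj (some (0, true)) (some (1, true)) (by simp)
  · exact S.disj (some (0, false)) (some (1, false)) (by simp)
  · intro x hx y hy z hz
    obtain ⟨i, hi⟩ := hN x hx
    obtain ⟨j, hj⟩ := hN y hy
    obtain ⟨k, hk⟩ := hN z hz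
    exact S.feasible L hi hj hk
  · intro x hx y hy z hz h
    obtain ⟨j, hj⟩ := hN y hy
    obtain ⟨k, hk⟩ := hN z hz
    rw [← cl_none (σ := σ) (Y := Y) (W := W)] at hx
    exact S.slack L hx hj hk h
  · intro x hx i
    rw [← cl_none (σ := σ) (Y := Y) (W := W)] at hx
    have hx0 : x ∈ ball (0 : E) r := by rwa [cl_none] at hx
    have hy : par σ Y W (some (i, true)) x ∈ cl σ Y W r (some (i, true)) := ⟨x, hx0, rfl⟩
    have hz : par σ Y W (some (i, false)) x ∈ cl σ Y W r (some (i, false)) := ⟨x, hx0, rfl⟩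
    simp only
    rw [S.Pot_eq hx, S.Pot_eq hy, S.Pot_eq hz]
    exact S.good_enn_eq L i hx

end Main

/-- A vector and a linear isometry moving it off the line it spans. -/
theorem exists_sym (d : ℕ) (hd : 2 ≤ d) : ∃ b : EuclideanSpace ℝ (Fin d),
    ∃ σ : EuclideanSpace ℝ (Fin d) ≃ₗᵢ[ℝ] EuclideanSpace ℝ (Fin d),
      b ≠ 0 ∧ σ b ≠ b ∧ σ b ≠ -b := by
  set i₀ : Fin d := ⟨0, by omega⟩
  set i₁ : Fin d := ⟨1, by omega⟩
  have h01 : i₁ ≠ i₀ := by simp [i₀, i₁]
  have hσ : LinearIsometryEquiv.piLpCongrLeft 2 ℝ ℝ (Equiv.swap i₀ i₁)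
      (EuclideanSpace.single i₀ 1) = EuclideanSpace.single i₁ (1 : ℝ) := by
    rw [EuclideanSpace.piLpCongrLeft_single, Equiv.swap_apply_left]
  refine ⟨EuclideanSpace.single i₀ 1, LinearIsometryEquiv.piLpCongrLeft 2 ℝ ℝ (Equiv.swap i₀ i₁),
    ?_, ?_, ?_⟩
  · intro h
    have := congrArg (fun v : EuclideanSpace ℝ (Fin d) => v i₀) h
    simp at this
  · rw [hσ]
    intro h
    have := congrArg (fun v : EuclideanSpace ℝ (Fin d) => v i₁) h
    simp [h01] at this
  · rw [hσ]
    intro h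
    have := congrArg (fun v : EuclideanSpace ℝ (Fin d) => v i₁) h
    simp [h01] at this

end Crest.Agent.R130
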