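import Crest.Agent.R130.Defs

/-!
# Elementary facts about the pair and triple cost
-/

set_option autoImplicit false

open MeasureTheory Metric Set Filter Topology
open scoped ENNReal
open Crest.AnalysisR.OT

namespace Crest.Agent.R130

variable {E : Type*} [NormedAddCommGroup E]

theorem pairCost_comm (s : ℝ) (x y : E) : pairCost s x y = pairCost s y x := by
  unfold pairCost; rw [norm_sub_rev]

theorem pairCost_self {s : ℝ} (hs : 0 < s) (x : E) : pairCost s x x = ⊤ := by
  unfold pairCost
  rw [sub_self, norm_zero, ENNReal.ofReal_zero, ENNReal.zero_rpow_of_neg (by linarith)]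

theorem pairCost_of_ne (s : ℝ) {x y : E} (h : x ≠ y) :
    pairCost s x y = ENNReal.ofReal (‖x - y‖ ^ (-s)) := by
  unfold pairCost
  rw [ENNReal.ofReal_rpow_of_pos (norm_pos_iff.2 (sub_ne_zero.2 h))]

theorem continuous_pairCost (s : ℝ) : Continuous fun p : E × E => pairCost s p.1 p.2 := by
  unfold pairCost
  exact ENNReal.continuous_rpow_const.comp
    (ENNReal.continuous_ofReal.comp (continuous_fst.sub continuous_snd).norm)

theorem continuous_tripleCost (s : ℝ) : Continuous fun p : E × E × E => tripleCost s p := by
  unfold tripleCost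
  exact (((continuous_pairCost s).comp
    (continuous_fst.prodMk (continuous_fst.comp continuous_snd))).add
    ((continuous_pairCost s).comp
    (continuous_fst.prodMk (continuous_snd.comp continuous_snd)))).add
    ((continuous_pairCost s).comp
    ((continuous_fst.comp continuous_snd).prodMk (continuous_snd.comp continuous_snd)))

theorem tripleCost_swap12 (s : ℝ) (x y z : E) :
    tripleCost s (x, y, z) = tripleCost s (y, x, z) := by
  unfold tripleCost
  simp only
  rw [pairCost_comm s x y]
  ring

theorem tripleCost_swap23 (s : ℝ) (x y z : E) :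
    tripleCost s (x, y, z) = tripleCost s (x, z, y) := by
  unfold tripleCost
  simp only
  rw [pairCost_comm s y z]
  ring

theorem tripleCost_of_ne (s : ℝ) {x y z : E} (hxy : x ≠ y) (hxz : x ≠ z) (hyz : y ≠ z) :
    tripleCost s (x, y, z) = ENNReal.ofReal (c s x y z) := by
  unfold tripleCost c
  simp only
  rw [pairCost_of_ne s hxy, pairCost_of_ne s hxz, pairCost_of_ne s hyz,
    ← ENNReal.ofReal_add (by positivity) (by positivity),
    ← ENNReal.ofReal_add (by positivity) (by positivity)]

theorem tripleCost_eq_top {s : ℝ} (hs : 0 < s) {x y z : E} (h : x = y ∨ x = z ∨ y = z) :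
    tripleCost s (x, y, z) = ⊤ := by
  unfold tripleCost
  simp only
  rcases h with rfl | rfl | rfl
  · rw [pairCost_self hs]; simp
  · rw [pairCost_self hs]; simp
  · rw [pairCost_self hs]; simp

end Crest.Agent.R130
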