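import Mathlib
import Crest.Prelude.Def_MultiMarginal

/-!
# R130 (S0175) blueprint: interfaces

Shared definitions for the five-cluster counterexample.
-/

set_option autoImplicit false

open MeasureTheory Metric Set
open scoped ENNReal ContDiff Topology

namespace Crest.Agent.R130

/-- `Y` maps the set `U` diffeomorphically onto an open set, with inverse `X`. Both functions are
globally Borel. -/
structure SmoothPair {E : Type*} [NormedAddCommGroup E] [NormedSpace ℝ E] [MeasurableSpace E]
    (U : Set E) (Y X : E → E) : Prop where
  isOpen_source : IsOpen U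
  isOpen_target : IsOpen (Y '' U)
  smooth : ContDiffOn ℝ ∞ Y U
  smooth_symm : ContDiffOn ℝ ∞ X (Y '' U)
  left_inv : ∀ x ∈ U, X (Y x) = x
  measurable : Measurable Y
  measurable_symm : Measurable X

/-- The real-valued three-body cost. -/
noncomputable def c {E : Type*} [NormedAddCommGroup E] (s : ℝ) (x y z : E) : ℝ :=
  ‖x - y‖ ^ (-s) + ‖x - z‖ ^ (-s) + ‖y - z‖ ^ (-s)

end Crest.Agent.R130
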