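import Crest.Agent.R130.Pair

/-! # R130 (S0175): the gradient `f` of `‖w‖^(-s)`, its derivative, and the semiconvexity
inequality. -/

set_option autoImplicit false

open MeasureTheory Metric Set Filter
open scoped ENNReal ContDiff Topology RealInnerProductSpace

namespace Crest.Agent.R130

variable {E : Type*} [NormedAddCommGroup E] [InnerProductSpace ℝ E]

/-- The gradient of `w ↦ ‖w‖^(-s)`. -/
noncomputable def force (s : ℝ) (w : E) : E := (-s * ‖w‖ ^ (-s - 2)) • w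

theorem force_neg (s : ℝ) (w : E) : force s (-w) = - force s w := by
  simp [force]

theorem force_two (s : ℝ) (w : E) : force s ((2 : ℝ) • w) = (2 : ℝ) ^ (-s - 1) • force s w := by
  simp only [force, norm_smul, smul_smul, Real.norm_ofNat]
  congr 1
  rw [Real.mul_rpow (by norm_num) (norm_nonneg _)]
  have : (2 : ℝ) ^ (-s - 1) = 2 ^ (-s - 2) * 2 := by
    rw [show -s - 1 = (-s - 2) + 1 by ring, Real.rpow_add (by norm_num), Real.rpow_one]
  rw [this]; ring

theorem contDiffAt_force (s : ℝ) {w : E} (hw : w ≠ 0) {n : WithTop ℕ∞} :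
    ContDiffAt ℝ n (force (E := E) s) w := by
  unfold force
  have h1 : ContDiffAt ℝ n (fun w : E => ‖w‖) w := contDiffAt_norm ℝ hw
  exact ((contDiffAt_const.mul (h1.rpow_const_of_ne (by simpa using hw)))).smul contDiffAt_id

/-- The derivative of `force`. -/
noncomputable def forceD (s : ℝ) (w : E) : E →L[ℝ] E :=
  (-s * ‖w‖ ^ (-s - 2)) • ContinuousLinearMap.id ℝ E +
    (s * (s + 2) * ‖w‖ ^ (-s - 4)) • (innerSL ℝ w).smulRight w

theorem forceD_apply (s : ℝ) (w v : E) :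
    forceD s w v = (-s * ‖w‖ ^ (-s - 2)) • v + (s * (s + 2) * ‖w‖ ^ (-s - 4) * ⟪w, v⟫) • w := by
  simp [forceD, smul_smul]

theorem hasFDerivAt_norm_rpow_ne (p : ℝ) {w : E} (hw : w ≠ 0) :
    HasFDerivAt (fun w : E => ‖w‖ ^ p) ((p * ‖w‖ ^ (p - 2)) • innerSL ℝ w) w := by
  have h1 : HasFDerivAt (fun w : E => ‖w‖ ^ 2) (2 • innerSL ℝ w) w :=
    (hasStrictFDerivAt_norm_sq w).hasFDerivAt
  have hpos : 0 < ‖w‖ := norm_pos_iff.2 hw
  have h2 : HasDerivAt (fun t : ℝ => t ^ (p / 2)) ((p / 2) * (‖w‖ ^ 2) ^ (p / 2 - 1)) (‖w‖ ^ 2) :=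
    Real.hasDerivAt_rpow_const (Or.inl (by positivity))
  have h3 := h2.comp_hasFDerivAt w h1
  have h4 : (fun w : E => ‖w‖ ^ p) = (fun t : ℝ => t ^ (p / 2)) ∘ (fun w : E => ‖w‖ ^ 2) := by
    funext w
    simp only [Function.comp]
    rw [← Real.rpow_natCast, ← Real.rpow_mul (norm_nonneg _)]
    congr 1
    push_cast; ring
  rw [h4]
  convert! h3 using 1
  have h5 : (‖w‖ ^ 2) ^ (p / 2 - 1) = ‖w‖ ^ (p - 2) := by
    rw [← Real.rpow_natCast, ← Real.rpow_mul (norm_nonneg _)]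
    congr 1
    push_cast; ring
  rw [h5]
  ext v
  simp
  ring

theorem hasFDerivAt_force (s : ℝ) {w : E} (hw : w ≠ 0) :
    HasFDerivAt (force (E := E) s) (forceD s w) w := by
  have h1 := (hasFDerivAt_norm_rpow_ne (-s - 2) hw).const_mul (-s)
  have h2 := h1.smul (hasFDerivAt_id w)
  convert! h2 using 1
  ext v
  simp only [forceD_apply, add_apply, smul_apply,
    ContinuousLinearMap.smulRight_apply, innerSL_apply_apply, smul_eq_mul, id,
    ContinuousLinearMap.id_apply]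
  rw [show -s - 2 - 2 = -s - 4 by ring]
  congr 2
  ring

theorem forceD_neg (s : ℝ) (w : E) : forceD s (-w) = forceD s w := by
  ext v
  simp [forceD_apply]

theorem forceD_two (s : ℝ) (w : E) :
    forceD s ((2 : ℝ) • w) = (2 : ℝ) ^ (-s - 2) • forceD s w := by
  ext v
  simp only [forceD_apply, norm_smul, smul_smul, Real.norm_ofNat, smul_apply,
    smul_add, inner_smul_left]
  rw [Real.mul_rpow (by norm_num) (norm_nonneg _), Real.mul_rpow (by norm_num) (norm_nonneg _)]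
  have : (2 : ℝ) ^ (-s - 2) = 2 ^ (-s - 4) * 4 := by
    rw [show -s - 2 = (-s - 4) + 2 by ring, Real.rpow_add (by norm_num)]
    norm_num
  rw [this]
  congr 2
  · ring
  · simp; ring

theorem forceD_injective (s : ℝ) (hs : 0 < s) {w : E} (hw : w ≠ 0) {v : E}
    (h : forceD s w v = 0) : v = 0 := by
  have hpos : 0 < ‖w‖ := norm_pos_iff.2 hw
  rw [forceD_apply] at h
  have h4 : ‖w‖ ^ (-s - 2) = ‖w‖ ^ (-s - 4) * ‖w‖ ^ 2 := by
    rw [← Real.rpow_natCast, ← Real.rpow_add hpos]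
    congr 1; push_cast; ring
  have hp : 0 < ‖w‖ ^ (-s - 4) := Real.rpow_pos_of_pos hpos _
  have h1 : ⟪w, (-s * ‖w‖ ^ (-s - 2)) • v + (s * (s + 2) * ‖w‖ ^ (-s - 4) * ⟪w, v⟫) • w⟫ = 0 := by
    rw [h, inner_zero_right]
  rw [inner_add_right, inner_smul_right, inner_smul_right, real_inner_self_eq_norm_sq, h4] at h1
  have h2 : (s * (s + 1) * ‖w‖ ^ (-s - 4) * ‖w‖ ^ 2) * ⟪w, v⟫ = 0 := by
    linear_combination h1
  have h3 : ⟪w, v⟫ = 0 := by
    rcases mul_eq_zero.1 h2 with h | h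
    · exfalso
      have : 0 < s * (s + 1) * ‖w‖ ^ (-s - 4) * ‖w‖ ^ 2 := by positivity
      linarith
    · exact h
  rw [h3] at h
  simp only [mul_zero, zero_smul, add_zero] at h
  rcases smul_eq_zero.1 h with h | h
  · exfalso
    rw [h4] at h
    have : 0 < s * (‖w‖ ^ (-s - 4) * ‖w‖ ^ 2) := by positivity
    linarith
  · exact h

/-- Semiconvexity of `‖w‖^(-s)`: the one-line inequality. -/
theorem norm_rpow_semiconvex (s : ℝ) (hs : 0 < s) {r r' : E} (hr : r ≠ 0) (hr' : r' ≠ 0) :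
    ‖r‖ ^ (-s) + ⟪force s r, r' - r⟫ - s / 2 * ‖r‖ ^ (-s - 2) * ‖r' - r‖ ^ 2 ≤ ‖r'‖ ^ (-s) := by
  have hpos : 0 < ‖r‖ := norm_pos_iff.2 hr
  have hpos' : 0 < ‖r'‖ := norm_pos_iff.2 hr'
  -- tangent line inequality for `t ^ (-p)`, `p = s / 2`
  have key : ∀ t u : ℝ, 0 < t → 0 < u →
      t ^ (-(s / 2)) - s / 2 * t ^ (-(s / 2) - 1) * (u - t) ≤ u ^ (-(s / 2)) := by
    intro t u ht hu
    have hv : 0 < u / t := div_pos hu ht
    have h1 : 1 - s / 2 * (u / t - 1) ≤ (u / t) ^ (-(s / 2)) := by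
      rw [Real.rpow_def_of_pos hv]
      have h2 := Real.add_one_le_exp (Real.log (u / t) * -(s / 2))
      have h3 := Real.log_le_sub_one_of_pos hv
      nlinarith
    have h4 : u ^ (-(s / 2)) = t ^ (-(s / 2)) * (u / t) ^ (-(s / 2)) := by
      rw [← Real.mul_rpow ht.le hv.le, mul_div_cancel₀ _ ht.ne']
    have h5 : t ^ (-(s / 2) - 1) * t = t ^ (-(s / 2)) := by
      rw [← Real.rpow_add_one ht.ne']; congr 1; ring
    have h6 : 0 < t ^ (-(s / 2)) := Real.rpow_pos_of_pos ht _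
    rw [h4]
    calc t ^ (-(s / 2)) - s / 2 * t ^ (-(s / 2) - 1) * (u - t)
        = t ^ (-(s / 2)) - s / 2 * (t ^ (-(s / 2) - 1) * t) * (u / t - 1) := by
          field_simp
      _ = t ^ (-(s / 2)) * (1 - s / 2 * (u / t - 1)) := by rw [h5]; ring
      _ ≤ _ := mul_le_mul_of_nonneg_left h1 h6.le
  have h := key (‖r‖ ^ 2) (‖r'‖ ^ 2) (by positivity) (by positivity)
  have e1 : ∀ x : ℝ, 0 ≤ x → (x ^ 2) ^ (-(s / 2)) = x ^ (-s) := by
    intro x hx
    rw [← Real.rpow_natCast, ← Real.rpow_mul hx]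
    congr 1; push_cast; ring
  have e2 : (‖r‖ ^ 2) ^ (-(s / 2) - 1) = ‖r‖ ^ (-s - 2) := by
    rw [← Real.rpow_natCast, ← Real.rpow_mul (norm_nonneg _)]
    congr 1; push_cast; ring
  rw [e1 _ (norm_nonneg _), e1 _ (norm_nonneg _), e2] at h
  refine le_trans (le_of_eq ?_) h
  have h7 : ‖r'‖ ^ 2 = ‖r‖ ^ 2 + 2 * ⟪r, r' - r⟫ + ‖r' - r‖ ^ 2 := by
    have := norm_add_sq_real r (r' - r)
    simpa using this
  rw [h7, force, inner_smul_left]
  simp
  ring

end Crest.Agent.R130
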