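import Crest.Agent.R130.LocalP

/-! # R130 (S0175): L1, the local structure near `(0, b, -b)`. -/

set_option autoImplicit false

open MeasureTheory Metric Set Filter
open scoped ENNReal ContDiff Topology RealInnerProductSpace

namespace Crest.Agent.R130

variable {E : Type*} [NormedAddCommGroup E] [InnerProductSpace ℝ E]

/-- Implicit function theorem in the analytic category, finite dimensional, only injectivity. -/
theorem ift_aux [FiniteDimensional ℝ E] (F : E × (E × E) → E × E) (u : E × (E × E))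
    (hF : ContDiffAt ℝ ω F u) (F' : E × (E × E) →L[ℝ] E × E) (hF' : HasFDerivAt F F' u)
    (hinj : ∀ w : E × E, F' (0, w) = 0 → w = 0) (h0 : F u = 0) :
    ∃ ψ : E → E × E, ContDiffAt ℝ ω ψ u.1 ∧ ψ u.1 = u.2 ∧
      ∀ᶠ v in 𝓝 u, F v = 0 ↔ ψ v.1 = v.2 := by
  have hinv : (fderiv ℝ F u ∘L .inr ℝ E (E × E)).IsInvertible := by
    rw [hF'.fderiv]
    have h1 : LinearMap.ker (F' ∘L .inr ℝ E (E × E) : E × E →L[ℝ] E × E).toLinearMap = ⊥ := by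
      rw [LinearMap.ker_eq_bot']
      intro w hw
      exact hinj w (by simpa using hw)
    let e := LinearEquiv.ofInjectiveEndo (F' ∘L .inr ℝ E (E × E) : E × E →L[ℝ] E × E).toLinearMap
      (LinearMap.ker_eq_bot.1 h1)
    refine ⟨e.toContinuousLinearEquiv, ?_⟩
    ext w <;> rfl
  refine ⟨hF.implicitFunction (by simp) hinv, hF.contDiffAt_implicitFunction (by simp) hinv,
    hF.implicitFunction_apply_self (by simp) hinv, ?_⟩
  have := hF.eventually_apply_eq_iff_implicitFunction (by simp) hinv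
  rw [h0] at this
  exact this

/-- The function whose `x, z` gradient is `P`. -/
noncomputable def Q (s K : ℝ) (b x y z : E) : ℝ :=
  c s x y z + K / 2 * ‖x‖ ^ 2 + ⟪force s b + force s ((2 : ℝ) • b), z + b⟫ + K / 2 * ‖z + b‖ ^ 2

theorem rpow_bound (s : ℝ) (hs : 0 < s) {t M : ℝ} (hM : 0 < M) (ht : M ≤ t) :
    t ^ (-s - 2) ≤ M ^ (-s - 2) :=
  Real.rpow_le_rpow_of_nonpos hM ht (by linarith)

theorem Q_ineq (s K : ℝ) (hs : 0 < s) (b x₁ y z₁ x z : E) (hP : P s K b (x₁, y, z₁) = 0)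
    (hb : b ≠ 0)
    (h1 : ‖b‖ / 2 ≤ ‖x₁ - y‖) (h2 : ‖b‖ / 2 ≤ ‖x₁ - z₁‖) (h3 : ‖b‖ / 2 ≤ ‖y - z₁‖)
    (h4 : x ≠ y) (h5 : x ≠ z) (h6 : y ≠ z) :
    Q s K b x₁ y z₁ + (K / 2 - 3 / 2 * s * (‖b‖ / 2) ^ (-s - 2)) *
      (‖x - x₁‖ ^ 2 + ‖z - z₁‖ ^ 2) ≤ Q s K b x y z := by
  have hb0 : 0 < ‖b‖ / 2 := by have := norm_pos_iff.2 hb; positivity
  set M : ℝ := (‖b‖ / 2) ^ (-s - 2) with hM
  have hM0 : 0 < M := Real.rpow_pos_of_pos hb0 _
  simp only [P, Prod.mk_eq_zero] at hP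
  obtain ⟨hP1, hP2⟩ := hP
  have n1 : x₁ - y ≠ 0 := norm_pos_iff.1 (lt_of_lt_of_le hb0 h1)
  have n2 : x₁ - z₁ ≠ 0 := norm_pos_iff.1 (lt_of_lt_of_le hb0 h2)
  have n3 : z₁ - y ≠ 0 := by rw [← norm_pos_iff, norm_sub_rev]; exact (lt_of_lt_of_le hb0 h3)
  have a1 := norm_rpow_semiconvex s hs n1 (sub_ne_zero.2 h4)
  have a2 := norm_rpow_semiconvex s hs n2 (sub_ne_zero.2 h5)
  have a3 := norm_rpow_semiconvex s hs n3 (sub_ne_zero.2 h6.symm)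
  set p : E := x - x₁ with hp
  set w : E := z - z₁ with hw
  rw [show x - y - (x₁ - y) = p by rw [hp]; abel] at a1
  rw [show x - z - (x₁ - z₁) = p - w by rw [hp, hw]; abel] at a2
  rw [show z - y - (z₁ - y) = w by rw [hw]; abel] at a3
  have m1 : s / 2 * ‖x₁ - y‖ ^ (-s - 2) * ‖p‖ ^ 2 ≤ s / 2 * M * ‖p‖ ^ 2 := by
    gcongr; exact rpow_bound s hs hb0 h1
  have m2 : s / 2 * ‖x₁ - z₁‖ ^ (-s - 2) * ‖p - w‖ ^ 2 ≤
      s / 2 * M * (2 * (‖p‖ ^ 2 + ‖w‖ ^ 2)) := by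
    have : ‖p - w‖ ^ 2 ≤ 2 * (‖p‖ ^ 2 + ‖w‖ ^ 2) := by
      have := parallelogram_law_with_norm ℝ p w
      nlinarith [norm_nonneg (p + w)]
    gcongr
    exact rpow_bound s hs hb0 h2
  have m3 : s / 2 * ‖z₁ - y‖ ^ (-s - 2) * ‖w‖ ^ 2 ≤ s / 2 * M * ‖w‖ ^ 2 := by
    gcongr; exact rpow_bound s hs hb0 (by rwa [norm_sub_rev])
  have q1 : ‖x‖ ^ 2 = ‖x₁‖ ^ 2 + 2 * ⟪x₁, p⟫ + ‖p‖ ^ 2 := by
    have := norm_add_sq_real x₁ p
    rwa [show x₁ + p = x by rw [hp]; abel] at this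
  have q2 : ‖z + b‖ ^ 2 = ‖z₁ + b‖ ^ 2 + 2 * ⟪z₁ + b, w⟫ + ‖w‖ ^ 2 := by
    have := norm_add_sq_real (z₁ + b) w
    rwa [show z₁ + b + w = z + b by rw [hw]; abel] at this
  have q3 : ⟪force s b + force s ((2 : ℝ) • b), z + b⟫ =
      ⟪force s b + force s ((2 : ℝ) • b), z₁ + b⟫ + ⟪force s b + force s ((2 : ℝ) • b), w⟫ := by
    rw [← inner_add_right]; congr 1; rw [hw]; abel
  have i1 : ⟪force s (x₁ - y), p⟫ + ⟪force s (x₁ - z₁), p⟫ + K * ⟪x₁, p⟫ = 0 := by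
    have := congrArg (fun t => ⟪t, p⟫) hP1
    simpa [inner_add_left, inner_smul_left] using this
  have i2 : -⟪force s (x₁ - z₁), w⟫ + ⟪force s (z₁ - y), w⟫ +
      ⟪force s b + force s ((2 : ℝ) • b), w⟫ + K * ⟪z₁ + b, w⟫ = 0 := by
    have := congrArg (fun t => ⟪t, w⟫) hP2
    rw [show z₁ - x₁ = -(x₁ - z₁) by abel, force_neg] at this
    rw [← inner_neg_left, ← inner_add_left, ← inner_add_left]
    have e : K * ⟪z₁ + b, w⟫ = ⟪K • (z₁ + b), w⟫ := (real_inner_smul_left _ _ _).symm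
    rw [e, ← inner_add_left]
    simpa using this
  have i3 : ⟪force s (x₁ - z₁), p - w⟫ = ⟪force s (x₁ - z₁), p⟫ - ⟪force s (x₁ - z₁), w⟫ :=
    inner_sub_right _ _ _
  unfold Q c
  rw [q1, q2, q3, norm_sub_rev y z, norm_sub_rev y z₁]
  nlinarith

/-- Swap of the first two components. -/
def sw12 : E × E × E →L[ℝ] E × E × E :=
  ((ContinuousLinearMap.fst ℝ E E).comp (ContinuousLinearMap.snd ℝ E (E × E))).prod
    ((ContinuousLinearMap.fst ℝ E (E × E)).prod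
      ((ContinuousLinearMap.snd ℝ E E).comp (ContinuousLinearMap.snd ℝ E (E × E))))

/-- Swap of the first and third components. -/
def sw13 : E × E × E →L[ℝ] E × E × E :=
  ((ContinuousLinearMap.snd ℝ E E).comp (ContinuousLinearMap.snd ℝ E (E × E))).prod
    (((ContinuousLinearMap.fst ℝ E E).comp (ContinuousLinearMap.snd ℝ E (E × E))).prod
      (ContinuousLinearMap.fst ℝ E (E × E)))

theorem sw12_apply (v : E × E × E) : sw12 v = (v.2.1, v.1, v.2.2) := rfl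

theorem sw13_apply (v : E × E × E) : sw13 v = (v.2.2, v.2.1, v.1) := rfl

theorem local_ift [FiniteDimensional ℝ E] (s : ℝ) (hs : 0 < s) {b : E} (hb : b ≠ 0) (K : ℝ)
    (hK : ‖forceD s b‖ * (3 + 1 / (2 : ℝ) ^ (-s - 2)) < K) :
    ∃ Y X W Z : E → E, ContDiffAt ℝ ω Y 0 ∧ ContDiffAt ℝ ω X b ∧ ContDiffAt ℝ ω W 0 ∧
      ContDiffAt ℝ ω Z (-b) ∧ Y 0 = b ∧ X b = 0 ∧ W 0 = -b ∧ Z (-b) = 0 ∧
      (∀ᶠ x in 𝓝 (0 : E), P s K b (x, Y x, W x) = 0) ∧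
      (∀ᶠ x in 𝓝 (0 : E), X (Y x) = x) ∧ (∀ᶠ x in 𝓝 (0 : E), Z (W x) = x) ∧
      (∀ᶠ y in 𝓝 b, Y (X y) = y) ∧ (∀ᶠ z in 𝓝 (-b), W (Z z) = z) := by
  have hD := hasFDerivAt_P s K hb
  have hC := contDiffAt_P s K hb (n := ω)
  have h0 := P_base s K b
  obtain ⟨ψ₁, c₁, b₁, e₁⟩ := ift_aux (P s K b) (0, b, -b) hC _ hD (fun w hw => by
    have := PD_ker s hs hb K hK (0, w) hw (Or.inl rfl)
    simpa using this) h0
  have hD12 : HasFDerivAt (P s K b ∘ sw12) ((PD s K b).comp sw12) (b, 0, -b) := by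
    have h1 : HasFDerivAt (sw12 : E × E × E → E × E × E) sw12 (b, 0, -b) :=
      (sw12 (E := E)).hasFDerivAt
    have h2 : HasFDerivAt (P s K b) (PD s K b) (sw12 (b, 0, -b)) := by
      simpa [sw12_apply] using hD
    exact h2.comp _ h1
  have hD13 : HasFDerivAt (P s K b ∘ sw13) ((PD s K b).comp sw13) (-b, b, 0) := by
    have h1 : HasFDerivAt (sw13 : E × E × E → E × E × E) sw13 (-b, b, 0) :=
      (sw13 (E := E)).hasFDerivAt
    have h2 : HasFDerivAt (P s K b) (PD s K b) (sw13 (-b, b, 0)) := by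
      simpa [sw13_apply] using hD
    exact h2.comp _ h1
  obtain ⟨ψ₂, c₂, b₂, e₂⟩ := ift_aux (P s K b ∘ sw12) (b, 0, -b)
    (ContDiffAt.comp _ (by simpa [sw12_apply] using hC) (sw12 (E := E)).contDiff.contDiffAt) _ hD12
    (fun w hw => by
      have := PD_ker s hs hb K hK (sw12 (0, w)) hw (Or.inr (Or.inl rfl))
      simpa [sw12_apply, Prod.ext_iff] using this) (by simpa [sw12_apply] using h0)
  obtain ⟨ψ₃, c₃, b₃, e₃⟩ := ift_aux (P s K b ∘ sw13) (-b, b, 0)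
    (ContDiffAt.comp _ (by simpa [sw13_apply] using hC) (sw13 (E := E)).contDiff.contDiffAt) _ hD13
    (fun w hw => by
      have := PD_ker s hs hb K hK (sw13 (0, w)) hw (Or.inr (Or.inr rfl))
      simpa [sw13_apply, Prod.ext_iff, and_comm] using this) (by simpa [sw13_apply] using h0)
  simp only at b₁ b₂ b₃ c₁ c₂ c₃
  -- transport the equivalences to a neighbourhood of the base point
  have t₂ : Tendsto (sw12 : E × E × E → E × E × E) (𝓝 (0, b, -b)) (𝓝 (b, 0, -b)) := by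
    have := (sw12 (E := E)).continuous.tendsto (0, b, -b)
    simpa [sw12_apply] using this
  have t₃ : Tendsto (sw13 : E × E × E → E × E × E) (𝓝 (0, b, -b)) (𝓝 (-b, b, 0)) := by
    have := (sw13 (E := E)).continuous.tendsto (0, b, -b)
    simpa [sw13_apply] using this
  have e₂' : ∀ᶠ v : E × E × E in 𝓝 (0, b, -b), P s K b v = 0 ↔ ψ₂ v.2.1 = (v.1, v.2.2) := by
    filter_upwards [t₂.eventually e₂] with v hv
    simpa [sw12_apply] using hv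
  have e₃' : ∀ᶠ v : E × E × E in 𝓝 (0, b, -b), P s K b v = 0 ↔ ψ₃ v.2.2 = (v.2.1, v.1) := by
    filter_upwards [t₃.eventually e₃] with v hv
    simpa [sw13_apply] using hv
  have n₁ : Tendsto (fun x : E => (x, (ψ₁ x).1, (ψ₁ x).2)) (𝓝 0) (𝓝 (0, b, -b)) := by
    have h := c₁.continuousAt
    have : ContinuousAt (fun x : E => (x, (ψ₁ x).1, (ψ₁ x).2)) 0 :=
      continuousAt_id.prodMk (h.fst.prodMk h.snd)
    have h2 := this.tendsto
    simpa [b₁] using h2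
  have n₂ : Tendsto (fun y : E => ((ψ₂ y).1, y, (ψ₂ y).2)) (𝓝 b) (𝓝 (0, b, -b)) := by
    have h := c₂.continuousAt
    have : ContinuousAt (fun y : E => ((ψ₂ y).1, y, (ψ₂ y).2)) b :=
      h.fst.prodMk (continuousAt_id.prodMk h.snd)
    have h2 := this.tendsto
    simpa [b₂] using h2
  have n₃ : Tendsto (fun z : E => ((ψ₃ z).2, (ψ₃ z).1, z)) (𝓝 (-b)) (𝓝 (0, b, -b)) := by
    have h := c₃.continuousAt
    have : ContinuousAt (fun z : E => ((ψ₃ z).2, (ψ₃ z).1, z)) (-b) :=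
      h.snd.prodMk (h.fst.prodMk continuousAt_id)
    have h2 := this.tendsto
    simpa [b₃] using h2
  refine ⟨fun x => (ψ₁ x).1, fun y => (ψ₂ y).1, fun x => (ψ₁ x).2, fun z => (ψ₃ z).2,
    contDiff_fst.contDiffAt.comp _ c₁, contDiff_fst.contDiffAt.comp _ c₂,
    contDiff_snd.contDiffAt.comp _ c₁, contDiff_snd.contDiffAt.comp _ c₃,
    by simp [b₁], by simp [b₂], by simp [b₁], by simp [b₃], ?_, ?_, ?_, ?_, ?_⟩
  · filter_upwards [n₁.eventually e₁] with x hx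
    exact hx.2 rfl
  · filter_upwards [n₁.eventually e₁, n₁.eventually e₂'] with x h1 h2
    rw [h2.1 (h1.2 rfl)]
  · filter_upwards [n₁.eventually e₁, n₁.eventually e₃'] with x h1 h2
    rw [h2.1 (h1.2 rfl)]
  · filter_upwards [n₂.eventually e₂', n₂.eventually e₁] with y h1 h2
    rw [h2.1 (h1.2 rfl)]
  · filter_upwards [n₃.eventually e₃', n₃.eventually e₁] with y h1 h2
    rw [h2.1 (h1.2 rfl)]

/-- **L1**: the local structure theorem. -/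
theorem local_structure {E : Type*} [NormedAddCommGroup E] [InnerProductSpace ℝ E]
    [FiniteDimensional ℝ E] [MeasurableSpace E] [BorelSpace E] (s : ℝ) (hs : 0 < s)
    (b : E) (hb : b ≠ 0) :
    ∃ r₀ > 0, ∃ K : ℝ, 0 ≤ K ∧ ∃ Y X W Z : E → E, ∃ φb φc : E → ℝ,
      SmoothPair (ball (0 : E) r₀) Y X ∧ SmoothPair (ball (0 : E) r₀) W Z ∧
      Y 0 = b ∧ W 0 = -b ∧ φb b = 0 ∧ φc (-b) = 0 ∧
      ContinuousOn φb (Y '' ball 0 r₀) ∧ ContinuousOn φc (W '' ball 0 r₀) ∧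
      (∀ x ∈ ball (0 : E) r₀, ∀ y ∈ Y '' ball 0 r₀, ∀ z ∈ W '' ball 0 r₀,
        c s 0 b (-b) - K * ‖x‖ ^ 2 + φb y + φc z ≤ c s x y z) ∧
      (∀ x ∈ ball (0 : E) r₀, ∀ y ∈ Y '' ball 0 r₀, ∀ z ∈ W '' ball 0 r₀,
        c s 0 b (-b) - K * ‖x‖ ^ 2 + φb y + φc z = c s x y z → y = Y x ∧ z = W x) ∧
      (∀ x ∈ ball (0 : E) r₀,
        c s 0 b (-b) - K * ‖x‖ ^ 2 + φb (Y x) + φc (W x) = c s x (Y x) (W x)) := by
  have hb0 : 0 < ‖b‖ := norm_pos_iff.2 hb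
  set κi : ℝ := 3 + 1 / (2 : ℝ) ^ (-s - 2) with hκi
  have hκi0 : 0 < κi := by
    have : (0 : ℝ) < 2 ^ (-s - 2) := Real.rpow_pos_of_pos (by norm_num) _
    positivity
  set M : ℝ := (‖b‖ / 2) ^ (-s - 2) with hM
  have hM0 : 0 < M := Real.rpow_pos_of_pos (by positivity) _
  set K : ℝ := ‖forceD s b‖ * κi + 3 * s * M + 1 with hK
  have hK1 : ‖forceD s b‖ * κi < K := by have : 0 < 3 * s * M := by positivity
                                         linarith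
  have hK2 : 0 < K / 2 - 3 / 2 * s * M := by
    have : 0 ≤ ‖forceD s b‖ * κi := by positivity
    linarith
  have hK0 : 0 < K := by
    have : 0 < 3 / 2 * s * M := by positivity
    linarith
  obtain ⟨Y, X, W, Z, cY, cX, cW, cZ, bY, bX, bW, bZ, eP, eXY, eZW, eYX, eWZ⟩ :=
    local_ift s hs hb K hK1
  obtain ⟨V₁, V₁o, V₁0, Y', X', hYX, hY', -⟩ := exists_smoothPair Y X 0 cY
    (by rw [bY]; exact cX) eXY (by rw [bY]; exact eYX)
  obtain ⟨V₂, V₂o, V₂0, W', Z', hWZ, hW', -⟩ := exists_smoothPair W Z 0 cW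
    (by rw [bW]; exact cZ) eZW (by rw [bW]; exact eWZ)
  have nY : ∀ᶠ x in 𝓝 (0 : E), ‖Y x - b‖ < ‖b‖ / 4 := by
    have h1 : ContinuousAt (fun x => ‖Y x - b‖) 0 := (cY.continuousAt.sub_const b).norm
    have h2 : ‖Y 0 - b‖ < ‖b‖ / 4 := by simp [bY, hb0]
    exact h1.eventually_lt_const h2
  have nW : ∀ᶠ x in 𝓝 (0 : E), ‖W x + b‖ < ‖b‖ / 4 := by
    have h1 : ContinuousAt (fun x => ‖W x + b‖) 0 := (cW.continuousAt.add_const b).norm
    have h2 : ‖W 0 + b‖ < ‖b‖ / 4 := by simp [bW, hb0]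
    exact h1.eventually_lt_const h2
  have n0 : ∀ᶠ x in 𝓝 (0 : E), ‖x‖ < ‖b‖ / 4 := by
    have h1 : ContinuousAt (fun x : E => ‖x‖) 0 := continuousAt_id.norm
    exact h1.eventually_lt_const (by simp [hb0])
  have all : ∀ᶠ x in 𝓝 (0 : E), x ∈ V₁ ∧ x ∈ V₂ ∧ P s K b (x, Y x, W x) = 0 ∧ ‖x‖ < ‖b‖ / 4 ∧
      ‖Y x - b‖ < ‖b‖ / 4 ∧ ‖W x + b‖ < ‖b‖ / 4 := by
    filter_upwards [V₁o.mem_nhds V₁0, V₂o.mem_nhds V₂0, eP, n0, nY, nW] with x h1 h2 h3 h4 h5 h6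
    exact ⟨h1, h2, h3, h4, h5, h6⟩
  obtain ⟨r₀, hr₀, hball⟩ := Metric.eventually_nhds_iff_ball.1 all
  have hsub₁ : ball (0 : E) r₀ ⊆ V₁ := fun x hx => (hball x hx).1
  have hsub₂ : ball (0 : E) r₀ ⊆ V₂ := fun x hx => (hball x hx).2.1
  have pY : SmoothPair (ball (0 : E) r₀) Y' X' := hYX.mono hsub₁ isOpen_ball
  have pW : SmoothPair (ball (0 : E) r₀) W' Z' := hWZ.mono hsub₂ isOpen_ball
  have h00 : (0 : E) ∈ ball (0 : E) r₀ := mem_ball_self hr₀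
  -- facts about points
  have fx : ∀ x ∈ ball (0 : E) r₀, ‖x‖ < ‖b‖ / 4 := fun x hx => (hball x hx).2.2.2.1
  have fy : ∀ y ∈ Y' '' ball (0 : E) r₀, ‖y - b‖ < ‖b‖ / 4 := by
    rintro _ ⟨x, hx, rfl⟩
    rw [hY' x (hsub₁ hx)]
    exact (hball x hx).2.2.2.2.1
  have fz : ∀ z ∈ W' '' ball (0 : E) r₀, ‖z + b‖ < ‖b‖ / 4 := by
    rintro _ ⟨x, hx, rfl⟩
    rw [hW' x (hsub₂ hx)]
    exact (hball x hx).2.2.2.2.2
  have dxy : ∀ x ∈ ball (0 : E) r₀, ∀ y ∈ Y' '' ball (0 : E) r₀, ‖b‖ / 2 ≤ ‖x - y‖ := by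
    intro x hx y hy
    have h1 := fx x hx
    have h2 := fy y hy
    have h3 : ‖b‖ ≤ ‖x - y‖ + ‖x‖ + ‖y - b‖ := by
      calc ‖b‖ = ‖-(x - y) + x - (y - b)‖ := by congr 1; abel
        _ ≤ ‖-(x - y) + x‖ + ‖y - b‖ := norm_sub_le _ _
        _ ≤ ‖-(x - y)‖ + ‖x‖ + ‖y - b‖ := by gcongr; exact norm_add_le _ _
        _ = _ := by rw [norm_neg]
    linarith
  have dxz : ∀ x ∈ ball (0 : E) r₀, ∀ z ∈ W' '' ball (0 : E) r₀, ‖b‖ / 2 ≤ ‖x - z‖ := by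
    intro x hx z hz
    have h1 := fx x hx
    have h2 := fz z hz
    have h3 : ‖b‖ ≤ ‖x - z‖ + ‖x‖ + ‖z + b‖ := by
      calc ‖b‖ = ‖(x - z) - x + (z + b)‖ := by congr 1; abel
        _ ≤ ‖(x - z) - x‖ + ‖z + b‖ := norm_add_le _ _
        _ ≤ ‖x - z‖ + ‖x‖ + ‖z + b‖ := by gcongr; exact norm_sub_le _ _
    linarith
  have dyz : ∀ y ∈ Y' '' ball (0 : E) r₀, ∀ z ∈ W' '' ball (0 : E) r₀, ‖b‖ / 2 ≤ ‖y - z‖ := by
    intro y hy z hz
    have h1 := fy y hy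
    have h2 := fz z hz
    have h3 : ‖(2 : ℝ) • b‖ ≤ ‖y - z‖ + ‖y - b‖ + ‖z + b‖ := by
      calc ‖(2 : ℝ) • b‖ = ‖(y - z) - (y - b) + (z + b)‖ := by congr 1; rw [two_smul]; abel
        _ ≤ ‖(y - z) - (y - b)‖ + ‖z + b‖ := norm_add_le _ _
        _ ≤ ‖y - z‖ + ‖y - b‖ + ‖z + b‖ := by gcongr; exact norm_sub_le _ _
    rw [norm_smul, Real.norm_ofNat] at h3
    linarith
  have ne_of : ∀ u v : E, ‖b‖ / 2 ≤ ‖u - v‖ → u ≠ v := by
    intro u v h huv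
    rw [huv, sub_self, norm_zero] at h
    linarith
  have mY : ∀ x ∈ ball (0 : E) r₀, Y' x ∈ Y' '' ball (0 : E) r₀ := fun x hx => ⟨x, hx, rfl⟩
  have mW : ∀ x ∈ ball (0 : E) r₀, W' x ∈ W' '' ball (0 : E) r₀ := fun x hx => ⟨x, hx, rfl⟩
  set G : E := force s b + force s ((2 : ℝ) • b) with hG
  set φb : E → ℝ := fun y => Q s K b (X' y) y (W' (X' y)) - c s 0 b (-b) with hφb
  set φc : E → ℝ := fun z => -(⟪G, z + b⟫ + K / 2 * ‖z + b‖ ^ 2) with hφc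
  -- the main identity
  have id1 : ∀ x y z : E, c s x y z = Q s K b x y z - K / 2 * ‖x‖ ^ 2 + φc z := by
    intro x y z
    simp only [Q, hφc, ← hG]
    ring
  have bY' : Y' 0 = b := by rw [hY' 0 V₁0, bY]
  have bW' : W' 0 = -b := by rw [hW' 0 V₂0, bW]
  have φbY : ∀ x ∈ ball (0 : E) r₀, φb (Y' x) = Q s K b x (Y' x) (W' x) - c s 0 b (-b) := by
    intro x hx
    simp only [hφb]
    rw [pY.left_inv x hx]
  -- key inequality
  have key : ∀ x ∈ ball (0 : E) r₀, ∀ x₁ ∈ ball (0 : E) r₀, ∀ z ∈ W' '' ball (0 : E) r₀,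
      Q s K b x₁ (Y' x₁) (W' x₁) + (K / 2 - 3 / 2 * s * M) *
        (‖x - x₁‖ ^ 2 + ‖z - W' x₁‖ ^ 2) ≤ Q s K b x (Y' x₁) z := by
    intro x hx x₁ hx₁ z hz
    have hP : P s K b (x₁, Y' x₁, W' x₁) = 0 := by
      rw [hY' x₁ (hsub₁ hx₁), hW' x₁ (hsub₂ hx₁)]
      exact (hball x₁ hx₁).2.2.1
    exact Q_ineq s K hs b x₁ (Y' x₁) (W' x₁) x z hP hb (dxy _ hx₁ _ (mY _ hx₁))
      (dxz _ hx₁ _ (mW _ hx₁)) (dyz _ (mY _ hx₁) _ (mW _ hx₁)) (ne_of _ _ (dxy _ hx _ (mY _ hx₁)))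
      (ne_of _ _ (dxz _ hx _ hz)) (ne_of _ _ (dyz _ (mY _ hx₁) _ hz))
  refine ⟨r₀, hr₀, K / 2, by positivity, Y', X', W', Z', φb, φc, pY, pW, bY', bW',
    ?_, ?_, ?_, ?_, ?_, ?_, ?_⟩
  · -- φb b = 0
    have h := φbY 0 h00
    rw [bY', bW'] at h
    rw [h]
    simp [Q]
  · simp [hφc]
  · -- continuity of φb
    have hX'c : ContinuousOn X' (Y' '' ball 0 r₀) := pY.smooth_symm.continuousOn
    have hX'm : ∀ y ∈ Y' '' ball (0 : E) r₀, X' y ∈ ball (0 : E) r₀ := by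
      rintro _ ⟨x, hx, rfl⟩
      rw [pY.left_inv x hx]; exact hx
    have hW'c : ContinuousOn (fun y => W' (X' y)) (Y' '' ball 0 r₀) :=
      pW.smooth.continuousOn.comp hX'c (fun y hy => hX'm y hy)
    have pw : ∀ f : E → E, ContinuousOn f (Y' '' ball 0 r₀) →
        (∀ y ∈ Y' '' ball (0 : E) r₀, f y ≠ 0) →
        ContinuousOn (fun y => ‖f y‖ ^ (-s)) (Y' '' ball 0 r₀) := fun f hf h =>
      hf.norm.rpow_const (fun y hy => Or.inl (by simpa using h y hy))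
    have t1 : ContinuousOn (fun y => ‖X' y - y‖ ^ (-s)) (Y' '' ball 0 r₀) :=
      pw _ (hX'c.sub continuousOn_id) (fun y hy =>
        sub_ne_zero.2 (ne_of _ _ (dxy _ (hX'm y hy) _ hy)))
    have t2 : ContinuousOn (fun y => ‖X' y - W' (X' y)‖ ^ (-s)) (Y' '' ball 0 r₀) :=
      pw _ (hX'c.sub hW'c) (fun y hy =>
        sub_ne_zero.2 (ne_of _ _ (dxz _ (hX'm y hy) _ (mW _ (hX'm y hy)))))
    have t3 : ContinuousOn (fun y => ‖y - W' (X' y)‖ ^ (-s)) (Y' '' ball 0 r₀) :=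
      pw _ (continuousOn_id.sub hW'c) (fun y hy =>
        sub_ne_zero.2 (ne_of _ _ (dyz _ hy _ (mW _ (hX'm y hy)))))
    simp only [hφb, Q, c]
    refine ContinuousOn.sub (ContinuousOn.add (ContinuousOn.add (ContinuousOn.add
      ((t1.add t2).add t3) ?_) ?_) ?_) continuousOn_const
    · exact continuousOn_const.mul (hX'c.norm.pow 2)
    · exact continuousOn_const.inner (hW'c.add continuousOn_const)
    · exact continuousOn_const.mul ((hW'c.add continuousOn_const).norm.pow 2)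
  · simp only [hφc]
    fun_prop
  · -- inequality
    rintro x hx _ ⟨x₁, hx₁, rfl⟩ z hz
    have h := key x hx x₁ hx₁ z hz
    rw [id1 x (Y' x₁) z, φbY x₁ hx₁]
    have : 0 ≤ (K / 2 - 3 / 2 * s * M) * (‖x - x₁‖ ^ 2 + ‖z - W' x₁‖ ^ 2) := by positivity
    linarith
  · -- equality
    rintro x hx _ ⟨x₁, hx₁, rfl⟩ z hz heq
    have h := key x hx x₁ hx₁ z hz
    rw [id1 x (Y' x₁) z, φbY x₁ hx₁] at heq
    have h2 : (K / 2 - 3 / 2 * s * M) * (‖x - x₁‖ ^ 2 + ‖z - W' x₁‖ ^ 2) ≤ 0 := by linarith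
    have h3 : ‖x - x₁‖ ^ 2 + ‖z - W' x₁‖ ^ 2 ≤ 0 := by
      by_contra hcon
      push Not at hcon
      have := mul_pos hK2 hcon
      linarith
    have h4 : ‖x - x₁‖ ^ 2 = 0 := by
      have := sq_nonneg ‖x - x₁‖; have := sq_nonneg ‖z - W' x₁‖; linarith
    have h5 : ‖z - W' x₁‖ ^ 2 = 0 := by
      have := sq_nonneg ‖x - x₁‖; have := sq_nonneg ‖z - W' x₁‖; linarith
    have h6 : x = x₁ := by
      rw [← sub_eq_zero, ← norm_eq_zero]; exact pow_eq_zero_iff (two_ne_zero) |>.1 h4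
    have h7 : z = W' x₁ := by
      rw [← sub_eq_zero, ← norm_eq_zero]; exact pow_eq_zero_iff (two_ne_zero) |>.1 h5
    rw [h6]
    exact ⟨rfl, h7⟩
  · intro x hx
    rw [id1 x (Y' x) (W' x), φbY x hx]
    ring

end Crest.Agent.R130
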