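import Crest.Agent.R130.Force

/-! # R130 (S0175): L1, the local structure near `(0, b, -b)`. -/

set_option autoImplicit false

open MeasureTheory Metric Set Filter
open scoped ENNReal ContDiff Topology RealInnerProductSpace

namespace Crest.Agent.R130

variable {E : Type*} [NormedAddCommGroup E] [InnerProductSpace ℝ E]

/-- The critical point equations. -/
noncomputable def P (s K : ℝ) (b : E) (v : E × E × E) : E × E :=
  (force s (v.1 - v.2.1) + force s (v.1 - v.2.2) + K • v.1,
    force s (v.2.2 - v.1) + force s (v.2.2 - v.2.1) + (force s b + force s ((2 : ℝ) • b)) +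
      K • (v.2.2 + b))

/-- The derivative of `P` at `(0, b, -b)`. -/
noncomputable def PD (s K : ℝ) (b : E) : E × E × E →L[ℝ] E × E :=
  ((forceD s b).comp (ContinuousLinearMap.fst ℝ E (E × E) -
      (ContinuousLinearMap.fst ℝ E E).comp (ContinuousLinearMap.snd ℝ E (E × E))) +
    (forceD s b).comp (ContinuousLinearMap.fst ℝ E (E × E) -
      (ContinuousLinearMap.snd ℝ E E).comp (ContinuousLinearMap.snd ℝ E (E × E))) +
    K • ContinuousLinearMap.fst ℝ E (E × E)).prod
  ((forceD s b).comp ((ContinuousLinearMap.snd ℝ E E).comp (ContinuousLinearMap.snd ℝ E (E × E)) -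
      ContinuousLinearMap.fst ℝ E (E × E)) +
    ((2 : ℝ) ^ (-s - 2)) • (forceD s b).comp
      ((ContinuousLinearMap.snd ℝ E E).comp (ContinuousLinearMap.snd ℝ E (E × E)) -
      (ContinuousLinearMap.fst ℝ E E).comp (ContinuousLinearMap.snd ℝ E (E × E))) +
    K • (ContinuousLinearMap.snd ℝ E E).comp (ContinuousLinearMap.snd ℝ E (E × E)))

theorem PD_apply (s K : ℝ) (b : E) (v : E × E × E) :
    PD s K b v = (forceD s b (v.1 - v.2.1) + forceD s b (v.1 - v.2.2) + K • v.1,
      forceD s b (v.2.2 - v.1) + (2 : ℝ) ^ (-s - 2) • forceD s b (v.2.2 - v.2.1) + K • v.2.2) := by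
  simp [PD]

theorem P_base (s K : ℝ) (b : E) : P s K b (0, b, -b) = 0 := by
  have : -b - b = -((2 : ℝ) • b) := by rw [two_smul]; abel
  simp only [P, this, force_neg, zero_sub, sub_zero, neg_neg, neg_add_cancel, smul_zero, add_zero]
  refine Prod.ext ?_ ?_
  · simp
  · simp only [Prod.snd_zero]
    abel

theorem hasFDerivAt_P (s K : ℝ) {b : E} (hb : b ≠ 0) :
    HasFDerivAt (P s K b) (PD s K b) (0, b, -b) := by
  have e1 : HasFDerivAt (fun v : E × E × E => v.1) (ContinuousLinearMap.fst ℝ E (E × E))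
    (0, b, -b) := (ContinuousLinearMap.fst ℝ E (E × E)).hasFDerivAt
  have e2 : HasFDerivAt (fun v : E × E × E => v.2.1)
    ((ContinuousLinearMap.fst ℝ E E).comp (ContinuousLinearMap.snd ℝ E (E × E)))
    (0, b, -b) :=
      ((ContinuousLinearMap.fst ℝ E E).comp (ContinuousLinearMap.snd ℝ E (E × E))).hasFDerivAt
  have e3 : HasFDerivAt (fun v : E × E × E => v.2.2)
    ((ContinuousLinearMap.snd ℝ E E).comp (ContinuousLinearMap.snd ℝ E (E × E)))
    (0, b, -b) :=
      ((ContinuousLinearMap.snd ℝ E E).comp (ContinuousLinearMap.snd ℝ E (E × E))).hasFDerivAt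
  have h2b : (2 : ℝ) • b ≠ 0 := by simp [hb]
  have f1 : HasFDerivAt (force (E := E) s) (forceD s b) (0 - b) := by
    have := hasFDerivAt_force s (w := 0 - b) (by simpa using hb)
    rwa [zero_sub, forceD_neg, ← zero_sub] at this
  have f2 : HasFDerivAt (force (E := E) s) (forceD s b) (0 - -b) := by
    have := hasFDerivAt_force s (w := b) hb
    rwa [show (0 : E) - -b = b by simp]
  have f3 : HasFDerivAt (force (E := E) s) (forceD s b) (-b - 0) := by
    have := hasFDerivAt_force s (w := -b) (by simpa using hb)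
    rwa [forceD_neg, ← sub_zero (-b)] at this
  have f4 : HasFDerivAt (force (E := E) s) ((2 : ℝ) ^ (-s - 2) • forceD s b) (-b - b) := by
    have := hasFDerivAt_force s (w := -((2 : ℝ) • b)) (by simpa using hb)
    rw [forceD_neg, forceD_two] at this
    rwa [show -b - b = -((2 : ℝ) • b) by rw [two_smul]; abel]
  have g1 := (f1.comp (0, b, -b) (e1.sub e2)).add (f2.comp (0, b, -b) (e1.sub e3))
  have g2 := ((f3.comp (0, b, -b) (e3.sub e1)).add (f4.comp (0, b, -b) (e3.sub e2))).add_const
    (force s b + force s ((2 : ℝ) • b))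
  exact (g1.add (e1.const_smul K)).prodMk (g2.add ((e3.add_const b).const_smul K))

theorem contDiffAt_P (s K : ℝ) {b : E} (hb : b ≠ 0) {n : WithTop ℕ∞} :
    ContDiffAt ℝ n (P s K b) (0, b, -b) := by
  have e1 : ContDiffAt ℝ n (fun v : E × E × E => v.1) (0, b, -b) := contDiffAt_fst
  have e2 : ContDiffAt ℝ n (fun v : E × E × E => v.2.1) (0, b, -b) := by fun_prop
  have e3 : ContDiffAt ℝ n (fun v : E × E × E => v.2.2) (0, b, -b) := by fun_prop
  have h2b : -b - b ≠ 0 := by
    rw [show -b - b = -((2 : ℝ) • b) by rw [two_smul]; abel]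
    simpa using hb
  have f1 := (contDiffAt_force (E := E) s (w := 0 - b) (by simpa using hb) (n := n)).comp
    (0, b, -b) (e1.sub e2)
  have f2 := (contDiffAt_force (E := E) s (w := 0 - -b) (by simpa using hb) (n := n)).comp
    (0, b, -b) (e1.sub e3)
  have f3 := (contDiffAt_force (E := E) s (w := -b - 0) (by simpa using hb) (n := n)).comp
    (0, b, -b) (e3.sub e1)
  have f4 := (contDiffAt_force (E := E) s (w := -b - b) h2b (n := n)).comp
    (0, b, -b) (e3.sub e2)
  exact ((f1.add f2).add (e1.const_smul K)).prodMk (((f3.add f4).add contDiffAt_const).add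
    ((e3.add contDiffAt_const).const_smul K))

/-- Linear algebra: a kernel vector of `PD` with one vanishing component vanishes. -/
theorem PD_ker (s : ℝ) (hs : 0 < s) {b : E} (hb : b ≠ 0) (K : ℝ)
    (hK : ‖forceD s b‖ * (3 + 1 / (2 : ℝ) ^ (-s - 2)) < K) (v : E × E × E)
    (hv : PD s K b v = 0) (h0 : v.1 = 0 ∨ v.2.1 = 0 ∨ v.2.2 = 0) : v = 0 := by
  obtain ⟨x, y, z⟩ := v
  rw [PD_apply] at hv
  simp only [Prod.mk_eq_zero] at hv h0 ⊢
  obtain ⟨h1, h2⟩ := hv
  set H := forceD s b with hH
  set κ : ℝ := (2 : ℝ) ^ (-s - 2) with hκ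
  have hκ0 : 0 < κ := Real.rpow_pos_of_pos (by norm_num) _
  have hκ1 : κ ≤ 1 := Real.rpow_le_one_of_one_le_of_nonpos (by norm_num) (by linarith)
  have hHn : 0 ≤ ‖H‖ := norm_nonneg _
  have hκi : 0 < 1 / κ := by positivity
  have hK3 : ‖H‖ * 3 < K := by nlinarith
  -- an inequality of the form `K ‖v‖ ≤ C ‖v‖` with `C < K` kills `v`
  have kill : ∀ (C : ℝ) (v : E), C ≤ 3 + 1 / κ → 0 ≤ C → K * ‖v‖ ≤ C * (‖H‖ * ‖v‖) → v = 0 := by
    intro C v hC hC0 h
    by_contra hne
    have : 0 < ‖v‖ := norm_pos_iff.2 hne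
    have h3 : C * (‖H‖ * ‖v‖) ≤ ‖H‖ * (3 + 1 / κ) * ‖v‖ := by
      have : 0 ≤ ‖H‖ * ‖v‖ := by positivity
      nlinarith
    nlinarith
  have hKpos : 0 < K := by nlinarith [mul_nonneg hHn (by norm_num : (0 : ℝ) ≤ 3)]
  rcases h0 with rfl | rfl | rfl
  · -- x = 0
    have e1 : H (y + z) = 0 := by
      have : H (0 - y) + H (0 - z) + K • (0 : E) = -(H (y + z)) := by
        simp [map_add]; abel
      rw [this, neg_eq_zero] at h1
      exact h1
    have e2 : y + z = 0 := forceD_injective s hs hb e1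
    have e3 : y = -z := eq_neg_of_add_eq_zero_left e2
    subst e3
    have e4 : K • z = -((1 + 2 * κ) • H z) := by
      have : H (z - 0) + κ • H (z - -z) + K • z = (1 + 2 * κ) • H z + K • z := by
        simp only [sub_zero, sub_neg_eq_add, map_add, smul_add, add_smul, one_smul, mul_smul,
          two_smul]
      rw [this] at h2
      exact eq_neg_of_add_eq_zero_right h2
    have e5 : z = 0 := by
      apply kill (1 + 2 * κ) z (by linarith) (by positivity)
      have := congrArg norm e4
      rw [norm_smul, norm_neg, norm_smul, Real.norm_of_nonneg hKpos.le,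
        Real.norm_of_nonneg (by positivity)] at this
      rw [this]
      exact mul_le_mul_of_nonneg_left (H.le_opNorm z) (by positivity)
    simp [e5]
  · -- y = 0
    have hx : K * ‖x‖ ≤ ‖H‖ * (2 * ‖x‖ + ‖z‖) := by
      have : K • x = -(H (x - 0) + H (x - z)) := eq_neg_of_add_eq_zero_right h1
      have h3 := congrArg norm this
      rw [norm_smul, norm_neg, Real.norm_of_nonneg hKpos.le] at h3
      rw [h3]
      calc ‖H (x - 0) + H (x - z)‖ ≤ ‖H (x - 0)‖ + ‖H (x - z)‖ := norm_add_le _ _
        _ ≤ ‖H‖ * ‖x‖ + ‖H‖ * (‖x‖ + ‖z‖) := by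
            gcongr
            · simpa using H.le_opNorm x
            · exact (H.le_opNorm _).trans (by gcongr; exact norm_sub_le _ _)
        _ = _ := by ring
    have hz : K * ‖z‖ ≤ ‖H‖ * (2 * ‖z‖ + ‖x‖) := by
      have : K • z = -(H (z - x) + κ • H (z - 0)) := eq_neg_of_add_eq_zero_right h2
      have h3 := congrArg norm this
      rw [norm_smul, norm_neg, Real.norm_of_nonneg hKpos.le] at h3
      rw [h3]
      calc ‖H (z - x) + κ • H (z - 0)‖ ≤ ‖H (z - x)‖ + ‖κ • H (z - 0)‖ := norm_add_le _ _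
        _ ≤ ‖H‖ * (‖z‖ + ‖x‖) + 1 * (‖H‖ * ‖z‖) := by
            rw [norm_smul, Real.norm_of_nonneg hκ0.le, sub_zero]
            gcongr
            · exact (H.le_opNorm _).trans (by gcongr; exact norm_sub_le _ _)
            · exact H.le_opNorm z
        _ = _ := by ring
    have hsum : (K - ‖H‖ * 3) * (‖x‖ + ‖z‖) ≤ 0 := by nlinarith
    have hxz : ‖x‖ + ‖z‖ ≤ 0 := by
      by_contra hcon
      push Not at hcon
      have : 0 < (K - ‖H‖ * 3) * (‖x‖ + ‖z‖) := mul_pos (by linarith) hcon
      linarith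
    have hx0 : ‖x‖ = 0 := by linarith [norm_nonneg x, norm_nonneg z]
    have hz0 : ‖z‖ = 0 := by linarith [norm_nonneg x, norm_nonneg z]
    simp [norm_eq_zero.1 hx0, norm_eq_zero.1 hz0]
  · -- z = 0
    have e1 : H (x + κ • y) = 0 := by
      have : H (0 - x) + κ • H (0 - y) + K • (0 : E) = -(H (x + κ • y)) := by
        simp [map_add]; abel
      rw [this, neg_eq_zero] at h2
      exact h2
    have e2 : x + κ • y = 0 := forceD_injective s hs hb e1
    have e3 : y = -((1 / κ) • x) := by
      have : κ • y = -x := eq_neg_of_add_eq_zero_right e2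
      have h3 : y = (1 / κ) • (κ • y) := by
        rw [smul_smul, one_div, inv_mul_cancel₀ hκ0.ne', one_smul]
      rw [h3, this, smul_neg]
    have e4 : K • x = -((2 + 1 / κ) • H x) := by
      have : H (x - y) + H (x - 0) + K • x = (2 + 1 / κ) • H x + K • x := by
        rw [e3]
        simp only [sub_zero, sub_neg_eq_add, map_add, map_smul, add_smul, two_smul]
        abel
      rw [this] at h1
      exact eq_neg_of_add_eq_zero_right h1
    have e5 : x = 0 := by
      apply kill (2 + 1 / κ) x (by linarith) (by positivity)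
      have := congrArg norm e4
      rw [norm_smul, norm_neg, norm_smul, Real.norm_of_nonneg hKpos.le,
        Real.norm_of_nonneg (by positivity)] at this
      rw [this]
      exact mul_le_mul_of_nonneg_left (H.le_opNorm x) (by positivity)
    subst e5
    simp at e3
    simp [e3]

end Crest.Agent.R130
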