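import Crest.Agent.R130.Defs

/-! # R130 (S0175): basic API of `SmoothPair`. -/

set_option autoImplicit false

open MeasureTheory Metric Set Filter
open scoped ENNReal ContDiff Topology

namespace Crest.Agent.R130

namespace SmoothPair

variable {E : Type*} [NormedAddCommGroup E] [NormedSpace ℝ E] [MeasurableSpace E]
  {U U' : Set E} {Y X : E → E}

theorem injOn (h : SmoothPair U Y X) : Set.InjOn Y U := by
  intro x hx y hy hxy
  rw [← h.left_inv x hx, ← h.left_inv y hy, hxy]

theorem image_eq (h : SmoothPair U Y X) (hU : U' ⊆ U) : Y '' U' = (Y '' U) ∩ X ⁻¹' U' := by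
  ext y
  constructor
  · rintro ⟨x, hx, rfl⟩
    exact ⟨⟨x, hU hx, rfl⟩, by simpa [h.left_inv x (hU hx)] using hx⟩
  · rintro ⟨⟨x, hx, rfl⟩, hy⟩
    refine ⟨x, ?_, rfl⟩
    simpa [h.left_inv x hx] using hy

theorem mono (h : SmoothPair U Y X) (hU : U' ⊆ U) (hU' : IsOpen U') : SmoothPair U' Y X where
  isOpen_source := hU'
  isOpen_target := by
    rw [h.image_eq hU]
    exact h.smooth_symm.continuousOn.isOpen_inter_preimage h.isOpen_target hU'
  smooth := h.smooth.mono hU
  smooth_symm := h.smooth_symm.mono (image_mono hU)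
  left_inv x hx := h.left_inv x (hU hx)
  measurable := h.measurable
  measurable_symm := h.measurable_symm

/-- Conjugation by a linear isometric involution `σ` preserving `U`. -/
theorem conj [BorelSpace E] (h : SmoothPair U Y X) (σ : E ≃ₗᵢ[ℝ] E) (hσ : ∀ x, σ (σ x) = x)
    (hσU : ∀ x ∈ U, σ x ∈ U) :
    SmoothPair U (fun x => σ (Y (σ x))) (fun x => σ (X (σ x))) := by
  have himg : (fun x => σ (Y (σ x))) '' U = σ ⁻¹' (Y '' U) := by
    ext y
    constructor
    · rintro ⟨x, hx, rfl⟩
      exact ⟨σ x, hσU x hx, by simp [hσ]⟩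
    · rintro ⟨x, hx, hxy⟩
      refine ⟨σ x, hσU x hx, ?_⟩
      simp [hσ, hxy]
  refine ⟨h.isOpen_source, ?_, ?_, ?_, ?_, ?_, ?_⟩
  · rw [himg]
    exact h.isOpen_target.preimage σ.continuous
  · exact σ.contDiff.comp_contDiffOn (h.smooth.comp σ.contDiff.contDiffOn (fun x hx => hσU x hx))
  · refine σ.contDiff.comp_contDiffOn (h.smooth_symm.comp σ.contDiff.contDiffOn (fun x hx => ?_))
    rw [himg] at hx
    exact hx
  · intro x hx
    simp only [hσ]
    rw [h.left_inv _ (hσU x hx), hσ]
  · exact σ.continuous.measurable.comp (h.measurable.comp σ.continuous.measurable)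
  · exact σ.continuous.measurable.comp (h.measurable_symm.comp σ.continuous.measurable)

end SmoothPair

/-- Two germs of analytic maps, inverse to each other, give a `SmoothPair` (after changing the
functions away from the point). -/
theorem exists_smoothPair {E : Type*} [NormedAddCommGroup E] [NormedSpace ℝ E] [MeasurableSpace E]
    [BorelSpace E] (Y X : E → E) (a : E) (hY : ContDiffAt ℝ ω Y a) (hX : ContDiffAt ℝ ω X (Y a))
    (h1 : ∀ᶠ x in 𝓝 a, X (Y x) = x) (h2 : ∀ᶠ y in 𝓝 (Y a), Y (X y) = y) :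
    ∃ V : Set E, IsOpen V ∧ a ∈ V ∧ ∃ Y' X' : E → E, SmoothPair V Y' X' ∧
      (∀ x ∈ V, Y' x = Y x) ∧ (∀ y ∈ Y '' V, X' y = X y) := by
  classical
  obtain ⟨O, hO, hOo, haO⟩ := _root_.eventually_nhds_iff.1 (h1.and (hY.eventually (by simp)))
  obtain ⟨P, hP, hPo, haP⟩ := _root_.eventually_nhds_iff.1 (h2.and (hX.eventually (by simp)))
  have hYO : ContinuousOn Y O := fun x hx => (hO x hx).2.continuousAt.continuousWithinAt
  have hXP : ContinuousOn X P := fun x hx => (hP x hx).2.continuousAt.continuousWithinAt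
  set V : Set E := O ∩ Y ⁻¹' P with hV
  have hVo : IsOpen V := hYO.isOpen_inter_preimage hOo hPo
  have hVimg : Y '' V = P ∩ X ⁻¹' O := by
    ext y
    constructor
    · rintro ⟨x, ⟨hx1, hx2⟩, rfl⟩
      refine ⟨hx2, ?_⟩
      simp only [mem_preimage]
      rw [(hO x hx1).1]
      exact hx1
    · rintro ⟨hy1, hy2⟩
      refine ⟨X y, ⟨hy2, ?_⟩, (hP y hy1).1⟩
      simp only [mem_preimage]
      rw [(hP y hy1).1]
      exact hy1
  have hYVo : IsOpen (Y '' V) := by
    rw [hVimg]
    exact hXP.isOpen_inter_preimage hPo hOo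
  refine ⟨V, hVo, ⟨haO, haP⟩, V.piecewise Y (fun _ => 0), (Y '' V).piecewise X (fun _ => 0),
    ?_, fun x hx => by simp [hx], fun y hy => by simp only [piecewise, if_pos hy]⟩
  have himg : V.piecewise Y (fun _ => (0 : E)) '' V = Y '' V :=
    image_congr fun x hx => by simp [hx]
  refine ⟨hVo, by rwa [himg], ?_, ?_, ?_, ?_, ?_⟩
  · refine ContDiffOn.congr (f := Y) ?_ (fun x hx => by simp [hx])
    exact fun x hx => ((hO x hx.1).2.of_le le_top).contDiffWithinAt
  · rw [himg]
    refine ContDiffOn.congr (f := X) ?_ (fun x hx => by simp only [piecewise, if_pos hx])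
    exact fun x hx => ((hP x (by rw [hVimg] at hx; exact hx.1)).2.of_le le_top).contDiffWithinAt
  · intro x hx
    have h3 : V.piecewise Y (fun _ => (0 : E)) x = Y x := by simp [hx]
    have h4 : Y x ∈ Y '' V := ⟨x, hx, rfl⟩
    rw [h3]
    simp only [piecewise, if_pos h4]
    exact (hO x hx.1).1
  · exact (hYO.mono inter_subset_left).measurable_piecewise continuousOn_const hVo.measurableSet
  · refine ContinuousOn.measurable_piecewise (hXP.mono ?_) continuousOn_const hYVo.measurableSet
    rw [hVimg]; exact inter_subset_left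

end Crest.Agent.R130
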